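import Mathlib
import Crest.Prelude.Def_MatchingPolytope

/-!
Row 304, part B (S0465, S0466): shared definitions.

A multigraph is `ends : E → V × V`; LOOPS ARE ALLOWED here (they appear after contracting a vertex
set) and are ignored by every cut.  `Feas` is Edmonds' description of the perfect matching polytope.
-/

set_option autoImplicit false
set_option linter.unusedSectionVars false
open Finset

namespace Crest.Agent.R304B

section General
variable {V E : Type} [Fintype V] [DecidableEq V] [Fintype E] [DecidableEq E]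

/-- The edge `e` crosses the vertex set `S` (exactly one end in `S`). -/
def Cr (ends : E → V × V) (S : Finset V) (e : E) : Prop := ¬ ((ends e).1 ∈ S ↔ (ends e).2 ∈ S)

instance (ends : E → V × V) (S : Finset V) : DecidablePred (Cr ends S) :=
  fun e => by unfold Cr; infer_instance

/-- Total weight of the edges crossing `S`. -/
def cut (ends : E → V × V) (S : Finset V) (x : E → ℝ) : ℝ :=
  ∑ e, if Cr ends S e then x e else 0

/-- Edmonds' inequalities. -/
structure Feas (ends : E → V × V) (x : E → ℝ) : Prop where
  nonneg : ∀ e, 0 ≤ x e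
  deg : ∀ v, cut ends {v} x = 1
  odd : ∀ S : Finset V, Odd S.card → 1 ≤ cut ends S x

/-- `M` is a perfect matching (no loops) inside the support of `x`. -/
structure PM (ends : E → V × V) (x : E → ℝ) (M : Finset E) : Prop where
  pos : ∀ e ∈ M, 0 < x e
  nl : ∀ e ∈ M, (ends e).1 ≠ (ends e).2
  one : ∀ v, (M.filter (Cr ends {v})).card = 1

/-- Weighted form of "`x` (without its loops) is a convex combination of perfect matchings". -/
def W (ends : E → V × V) (x : E → ℝ) : Prop :=
  ∀ c : E → ℝ, ∃ M, PM ends x M ∧
    (∑ e, if (ends e).1 = (ends e).2 then 0 else c e * x e) ≤ ∑ e ∈ M, c e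

/-- Contraction of `S` to the single vertex `none`. -/
def ctr (S : Finset V) (v : V) : Option {v // v ∉ S} := if h : v ∈ S then none else some ⟨v, h⟩

/-- The contracted multigraph `G / S` (same edge set; edges inside `S` become loops). -/
def cends (ends : E → V × V) (S : Finset V) (e : E) : Option {v // v ∉ S} × Option {v // v ∉ S} :=
  (ctr S (ends e).1, ctr S (ends e).2)

/-- Preimage of a vertex set of `G / S`. -/
def pre (S : Finset V) (T : Finset (Option {v // v ∉ S})) : Finset V :=
  univ.filter fun v => ctr S v ∈ T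

/-- Fractional part of the weight: `x e` if `x e < 1`, else `0`. -/
noncomputable def fw (x : E → ℝ) (e : E) : ℝ := if x e < 1 then x e else 0

/-- Weighted fractional cut vector. -/
noncomputable def cv (ends : E → V × V) (x : E → ℝ) (S : Finset V) : E → ℝ :=
  fun e => if Cr ends S e then fw x e else 0

/-- Span of the cut vectors of the tight odd sets. -/
noncomputable def tsp (ends : E → V × V) (x : E → ℝ) : Submodule ℝ (E → ℝ) :=
  Submodule.span ℝ {g | ∃ S : Finset V, Odd S.card ∧ cut ends S x = 1 ∧ g = cv ends x S}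

open Classical in
/-- Active vertices: those meeting a (non-loop) edge with `x e ≠ 0`, `x e < 1`. -/
noncomputable def act (ends : E → V × V) (x : E → ℝ) : Finset V :=
  univ.filter fun v => cv ends x {v} ≠ 0

omit [Fintype V] [Fintype E] [DecidableEq E] in
lemma Cr_singleton (ends : E → V × V) (v : V) (e : E) :
    Cr ends {v} e ↔ (ends e).1 ≠ (ends e).2 ∧ ((ends e).1 = v ∨ (ends e).2 = v) := by
  unfold Cr
  simp only [mem_singleton]
  constructor
  · intro h
    refine ⟨fun h' => h (by rw [h']), ?_⟩
    by_contra h'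
    push Not at h'
    exact h ⟨fun a => absurd a h'.1, fun a => absurd a h'.2⟩
  · rintro ⟨h1, h2 | h2⟩ h
    · exact h1 (h2.trans (h.1 h2).symm)
    · exact h1 ((h.2 h2).trans h2.symm)

omit [Fintype V] [Fintype E] [DecidableEq E] in
lemma Cr.ne {ends : E → V × V} {S : Finset V} {e : E} (h : Cr ends S e) :
    (ends e).1 ≠ (ends e).2 := fun h' => h (by rw [h'])

omit [Fintype E] [DecidableEq E] in
lemma Cr_compl (ends : E → V × V) (S : Finset V) (e : E) : Cr ends Sᶜ e ↔ Cr ends S e := by
  unfold Cr
  simp only [mem_compl]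
  tauto

omit [DecidableEq E] in
lemma cut_compl (ends : E → V × V) (S : Finset V) (x : E → ℝ) : cut ends Sᶜ x = cut ends S x := by
  unfold cut
  simp only [Cr_compl]

omit [Fintype E] [DecidableEq E] in
lemma cv_compl (ends : E → V × V) (x : E → ℝ) (S : Finset V) : cv ends x Sᶜ = cv ends x S := by
  unfold cv
  simp only [Cr_compl]

omit [Fintype V] [DecidableEq E] in
lemma cut_add (ends : E → V × V) (S : Finset V) (x y : E → ℝ) :
    cut ends S (x + y) = cut ends S x + cut ends S y := by
  unfold cut
  rw [← sum_add_distrib]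
  refine sum_congr rfl fun e _ => ?_
  split_ifs <;> simp

omit [Fintype V] [DecidableEq E] in
lemma cut_smul (ends : E → V × V) (S : Finset V) (t : ℝ) (x : E → ℝ) :
    cut ends S (t • x) = t * cut ends S x := by
  unfold cut
  rw [mul_sum]
  refine sum_congr rfl fun e _ => ?_
  split_ifs <;> simp

omit [Fintype V] [DecidableEq E] in
lemma cut_sub (ends : E → V × V) (S : Finset V) (x y : E → ℝ) :
    cut ends S (x - y) = cut ends S x - cut ends S y := by
  unfold cut
  rw [← sum_sub_distrib]
  refine sum_congr rfl fun e _ => ?_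
  split_ifs <;> simp

omit [Fintype V] [DecidableEq E] in
lemma cut_eq_filter (ends : E → V × V) (S : Finset V) (x : E → ℝ) :
    cut ends S x = ∑ e ∈ univ.filter (Cr ends S), x e := by
  unfold cut
  rw [sum_filter]

omit [Fintype V] [DecidableEq E] in
lemma continuous_cut (ends : E → V × V) (S : Finset V) : Continuous (cut ends S) := by
  unfold cut
  refine continuous_finsetSum _ fun e _ => ?_
  split_ifs
  · exact continuous_apply e
  · exact continuous_const

omit [Fintype V] [DecidableEq E] in
/-- A crossing edge weighs at most the cut. -/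
lemma le_cut {ends : E → V × V} {S : Finset V} {x : E → ℝ} (hx : ∀ e, 0 ≤ x e) {e : E}
    (h : Cr ends S e) : x e ≤ cut ends S x := by
  unfold cut
  have := single_le_sum (f := fun e => if Cr ends S e then x e else 0) (s := univ)
    (fun e _ => by have := hx e; positivity) (mem_univ e)
  simpa [h] using this

omit [Fintype V] [DecidableEq E] in
lemma Feas.le_one {ends : E → V × V} {x : E → ℝ} (h : Feas ends x) {e : E}
    (he : (ends e).1 ≠ (ends e).2) : x e ≤ 1 := by
  rw [← h.deg (ends e).1]
  exact le_cut h.nonneg ((Cr_singleton _ _ _).2 ⟨he, Or.inl rfl⟩)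

omit [DecidableEq E] in
lemma Feas.even_card {ends : E → V × V} {x : E → ℝ} (h : Feas ends x) :
    Even (Fintype.card V) := by
  by_contra h'
  have := h.odd univ (by simpa [Nat.not_even_iff_odd] using h')
  have h0 : cut ends univ x = 0 := by
    unfold cut Cr
    simp
  linarith

omit [DecidableEq E] in
lemma Feas.odd_compl {ends : E → V × V} {x : E → ℝ} (h : Feas ends x) {S : Finset V}
    (hS : Odd S.card) : Odd Sᶜ.card := by
  have h1 := h.even_card
  have h2 := card_add_card_compl S
  rw [Nat.odd_iff] at *
  rw [Nat.even_iff] at h1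
  omega

/-! ### Contraction -/

lemma ctr_eq_none {S : Finset V} {v : V} : ctr S v = none ↔ v ∈ S := by
  unfold ctr
  split_ifs with h <;> simp [h]

lemma ctr_eq_some {S : Finset V} {v : V} {w : {v // v ∉ S}} : ctr S v = some w ↔ v = w.1 := by
  unfold ctr
  split_ifs with h
  · simp only [false_iff]
    rintro rfl
    exact w.2 h
  · simp [Subtype.ext_iff]

lemma ctr_of_notMem {S : Finset V} {v : V} (h : v ∉ S) : ctr S v = some ⟨v, h⟩ :=
  ctr_eq_some.2 rfl

lemma ctr_eq_ctr {S : Finset V} {u v : V} : ctr S u = ctr S v ↔ (u ∈ S ∧ v ∈ S) ∨ u = v := by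
  unfold ctr
  split_ifs with h1 h2 h2
  · simp [h1, h2]
  · simp only [h2, and_false, false_or, false_iff]
    rintro rfl
    exact h2 h1
  · simp only [h1, false_and, false_or, false_iff]
    rintro rfl
    exact h1 h2
  · simp [h1]

/-- The loops of `G / S`. -/
lemma cends_loop (ends : E → V × V) (S : Finset V) (e : E) :
    (cends ends S e).1 = (cends ends S e).2 ↔
      ((ends e).1 ∈ S ∧ (ends e).2 ∈ S) ∨ (ends e).1 = (ends e).2 := ctr_eq_ctr

lemma mem_pre {S : Finset V} {T : Finset (Option {v // v ∉ S})} {v : V} :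
    v ∈ pre S T ↔ ctr S v ∈ T := by
  simp [pre]

lemma Cr_cends (ends : E → V × V) (S : Finset V) (T : Finset (Option {v // v ∉ S})) (e : E) :
    Cr (cends ends S) T e ↔ Cr ends (pre S T) e := by
  unfold Cr cends
  simp only [mem_pre]

lemma cut_cends (ends : E → V × V) (S : Finset V) (T : Finset (Option {v // v ∉ S}))
    (x : E → ℝ) : cut (cends ends S) T x = cut ends (pre S T) x := by
  unfold cut
  simp only [Cr_cends]

lemma cv_cends (ends : E → V × V) (x : E → ℝ) (S : Finset V)
    (T : Finset (Option {v // v ∉ S})) : cv (cends ends S) x T = cv ends x (pre S T) := by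
  unfold cv
  simp only [Cr_cends]

lemma pre_none (S : Finset V) : pre S {none} = S := by
  ext v
  simp [mem_pre, ctr_eq_none]

lemma pre_some (S : Finset V) (w : {v // v ∉ S}) : pre S {some w} = {w.1} := by
  ext v
  simp [mem_pre, ctr_eq_some]

lemma card_pre_of_notMem {S : Finset V} {T : Finset (Option {v // v ∉ S})} (h : none ∉ T) :
    (pre S T).card = T.card := by
  refine card_bij (fun v _ => ctr S v) (fun v hv => mem_pre.1 hv) ?_ ?_
  · intro u hu v hv huv
    rcases ctr_eq_ctr.1 huv with h' | h'
    · exact absurd (ctr_eq_none.2 h'.1 ▸ mem_pre.1 hu) h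
    · exact h'
  · intro w hw
    cases w with
    | none => exact absurd hw h
    | some w => exact ⟨w.1, mem_pre.2 (by rw [ctr_eq_some.2 rfl]; exact hw), ctr_eq_some.2 rfl⟩

lemma card_pre_of_mem {S : Finset V} {T : Finset (Option {v // v ∉ S})} (h : none ∈ T) :
    (pre S T).card + 1 = S.card + T.card := by
  have h1 : pre S T = S ∪ pre S (T.erase none) := by
    ext v
    simp only [mem_pre, mem_union, mem_erase, ne_eq, ctr_eq_none]
    constructor
    · intro hv
      by_cases h' : v ∈ S
      · exact Or.inl h'
      · exact Or.inr ⟨h', hv⟩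
    · rintro (hv | hv)
      · rw [ctr_eq_none.2 hv]; exact h
      · exact hv.2
  have h2 : Disjoint S (pre S (T.erase none)) := by
    rw [disjoint_left]
    intro v hv hv'
    rw [mem_pre, ctr_eq_none.2 hv] at hv'
    simp at hv'
  rw [h1, card_union_of_disjoint h2, card_pre_of_notMem (notMem_erase _ _), add_assoc,
    card_erase_add_one h]

lemma odd_pre {S : Finset V} (hS : Odd S.card) {T : Finset (Option {v // v ∉ S})}
    (hT : Odd T.card) : Odd (pre S T).card := by
  by_cases h : none ∈ T
  · have := card_pre_of_mem h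
    rw [Nat.odd_iff] at *
    omega
  · rwa [card_pre_of_notMem h]

/-- Every superset of `S` is the preimage of a vertex set of `G / S`. -/
lemma exists_pre {S T : Finset V} (h : S ⊆ T) :
    ∃ T' : Finset (Option {v // v ∉ S}), pre S T' = T ∧ T'.card + S.card = T.card + 1 := by
  have h1 : pre S (insert none (T.image (ctr S))) = T := by
    ext v
    simp only [mem_pre, mem_insert, mem_image, ctr_eq_none]
    constructor
    · rintro (hv | ⟨u, hu, huv⟩)
      · exact h hv
      · rcases ctr_eq_ctr.1 huv with h' | h'
        · exact h h'.2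
        · exact h' ▸ hu
    · intro hv
      exact Or.inr ⟨v, hv, rfl⟩
  refine ⟨insert none (T.image (ctr S)), h1, ?_⟩
  have := card_pre_of_mem (mem_insert_self none (T.image (ctr S)))
  rw [h1] at this
  omega

lemma card_ctr (S : Finset V) :
    Fintype.card (Option {v // v ∉ S}) + S.card = Fintype.card V + 1 := by
  have := card_pre_of_mem (S := S) (T := univ) (mem_univ none)
  have h1 : pre S univ = univ := by
    ext v
    simp [mem_pre]
  rw [h1, card_univ, card_univ] at this
  omega

/-- Contracting a tight odd set keeps feasibility. -/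
lemma Feas.contract {ends : E → V × V} {x : E → ℝ} (h : Feas ends x) {S : Finset V}
    (hS : Odd S.card) (ht : cut ends S x = 1) : Feas (cends ends S) x where
  nonneg := h.nonneg
  deg v := by
    rw [cut_cends]
    cases v with
    | none => rwa [pre_none]
    | some w => rw [pre_some]; exact h.deg _
  odd T hT := by
    rw [cut_cends]
    exact h.odd _ (odd_pre hS hT)

lemma PM.mono {ends : E → V × V} {x y : E → ℝ} {M : Finset E} (h : PM ends y M)
    (hxy : ∀ e, 0 < y e → 0 < x e) : PM ends x M :=
  ⟨fun e he => hxy e (h.pos e he), h.nl, h.one⟩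

lemma fw_nonneg {x : E → ℝ} (hx : ∀ e, 0 ≤ x e) (e : E) : 0 ≤ fw x e := by
  unfold fw
  split_ifs
  · exact hx e
  · exact le_rfl

lemma fw_ne_zero {x : E → ℝ} (hx : ∀ e, 0 ≤ x e) (e : E) : fw x e ≠ 0 ↔ 0 < x e ∧ x e < 1 := by
  unfold fw
  split_ifs with h
  · exact ⟨fun h' => ⟨lt_of_le_of_ne (hx e) (Ne.symm h'), h⟩, fun h' => h'.1.ne'⟩
  · simp [h]

lemma mem_act {ends : E → V × V} {x : E → ℝ} {v : V} :
    v ∈ act ends x ↔ ∃ e, Cr ends {v} e ∧ fw x e ≠ 0 := by
  unfold act cv
  simp only [mem_filter, mem_univ, true_and, ne_eq, funext_iff, Pi.zero_apply, not_forall]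
  refine exists_congr fun e => ?_
  by_cases h : Cr ends {v} e <;> simp [h]

end General

/-! ### Laws on perfect matchings -/

section Laws
open Crest.Matchings

/-- `q` is a law on perfect matchings of maximal entropy among the laws with its marginals. -/
def MaxEnt {v k : ℕ} (ends : Fin k → Fin v × Fin v) (q : Finset (Fin k) → ℝ) : Prop :=
  IsMatchingLaw ends q ∧
    ∀ q', IsMatchingLaw ends q' → marginal q' = marginal q → lawEntropy q' ≤ lawEntropy q

/-- The Bethe-type functional `∑ -x log x - κ ∑ -(1 - x) log (1 - x)`. -/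
noncomputable def Phi {k : ℕ} (κ : ℝ) (x : Fin k → ℝ) : ℝ :=
  ∑ e, Real.negMulLog (x e) - κ * ∑ e, Real.negMulLog (1 - x e)

lemma marginal_eq {k : ℕ} (p : Finset (Fin k) → ℝ) (e : Fin k) :
    marginal p e = ∑ M, p M * pmIndicator M e := by
  unfold marginal pmIndicator
  rw [sum_filter]
  refine sum_congr rfl fun M _ => ?_
  split_ifs <;> simp

lemma continuous_marginal {k : ℕ} : Continuous (fun p : Finset (Fin k) → ℝ => marginal p) := by
  refine continuous_pi fun e => ?_
  unfold marginal
  exact continuous_finsetSum _ fun M _ => continuous_apply M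

lemma continuous_lawEntropy {k : ℕ} :
    Continuous (fun p : Finset (Fin k) → ℝ => lawEntropy p) := by
  unfold lawEntropy
  exact continuous_finsetSum _ fun M _ => Real.continuous_negMulLog.comp (continuous_apply M)

lemma continuous_Phi {k : ℕ} (κ : ℝ) : Continuous (fun x : Fin k → ℝ => Phi κ x) := by
  unfold Phi
  refine (continuous_finsetSum _ fun e _ =>
    Real.continuous_negMulLog.comp (continuous_apply e)).sub (continuous_const.mul ?_)
  exact continuous_finsetSum _ fun e _ =>
    Real.continuous_negMulLog.comp (continuous_const.sub (continuous_apply e))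

/-- Mixtures of two laws. -/
lemma law_mix {v k : ℕ} {ends : Fin k → Fin v × Fin v} {p q : Finset (Fin k) → ℝ}
    (hp : IsMatchingLaw ends p) (hq : IsMatchingLaw ends q) {a b : ℝ} (ha : 0 ≤ a) (hb : 0 ≤ b)
    (hab : a + b = 1) : IsMatchingLaw ends (fun M => a * p M + b * q M) := by
  refine ⟨fun M => ?_, ?_, fun M hM => ?_⟩
  · have := hp.1 M; have := hq.1 M; positivity
  · rw [sum_add_distrib, ← mul_sum, ← mul_sum, hp.2.1, hq.2.1]; linarith
  · by_contra h
    have h1 : p M = 0 := by by_contra h'; exact h (hp.2.2 M h')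
    have h2 : q M = 0 := by by_contra h'; exact h (hq.2.2 M h')
    exact hM (by simp [h1, h2])

lemma marginal_mix {k : ℕ} (p q : Finset (Fin k) → ℝ) (a b : ℝ) (e : Fin k) :
    marginal (fun M => a * p M + b * q M) e = a * marginal p e + b * marginal q e := by
  unfold marginal
  rw [sum_add_distrib, ← mul_sum, ← mul_sum]

lemma marginal_nonneg {v k : ℕ} {ends : Fin k → Fin v × Fin v} {p : Finset (Fin k) → ℝ}
    (hp : IsMatchingLaw ends p) (e : Fin k) : 0 ≤ marginal p e :=
  sum_nonneg fun M _ => hp.1 M

lemma marginal_le_one {v k : ℕ} {ends : Fin k → Fin v × Fin v} {p : Finset (Fin k) → ℝ}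
    (hp : IsMatchingLaw ends p) (e : Fin k) : marginal p e ≤ 1 := by
  rw [← hp.2.1]
  exact sum_le_sum_of_subset_of_nonneg (filter_subset _ _) fun M _ _ => hp.1 M

lemma lawEntropy_nonneg {v k : ℕ} {ends : Fin k → Fin v × Fin v} {p : Finset (Fin k) → ℝ}
    (hp : IsMatchingLaw ends p) : 0 ≤ lawEntropy p := by
  refine sum_nonneg fun M _ => Real.negMulLog_nonneg (hp.1 M) ?_
  rw [← hp.2.1]
  exact single_le_sum (f := p) (fun M _ => hp.1 M) (mem_univ M)

/-- The set of laws is compact. -/
lemma isCompact_laws {v k : ℕ} (ends : Fin k → Fin v × Fin v) :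
    IsCompact {p : Finset (Fin k) → ℝ | IsMatchingLaw ends p} := by
  have hc : IsClosed {p : Finset (Fin k) → ℝ | IsMatchingLaw ends p} := by
    have : {p : Finset (Fin k) → ℝ | IsMatchingLaw ends p} =
        (⋂ M, {p | 0 ≤ p M}) ∩ ({p | ∑ M, p M = 1} ∩
          ⋂ M ∈ {M | ¬ IsPerfectMatching ends M}, {p | p M = 0}) := by
      ext p
      simp only [IsMatchingLaw, Set.mem_ofPred_eq, Set.mem_inter_iff, Set.mem_iInter]
      refine and_congr_right fun _ => and_congr_right fun _ => forall_congr' fun M => ?_
      tauto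
    rw [this]
    refine (isClosed_iInter fun M => isClosed_le continuous_const (continuous_apply M)).inter
      ((isClosed_eq (continuous_finsetSum _ fun M _ => continuous_apply M)
        continuous_const).inter ?_)
    exact isClosed_biInter fun M _ => isClosed_eq (continuous_apply M) continuous_const
  refine (isCompact_stdSimplex ℝ (Finset (Fin k))).of_isClosed_subset hc ?_
  intro p hp
  exact ⟨hp.1, hp.2.1⟩

end Laws

end Crest.Agent.R304B
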