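import Mathlib
import Crest.Agent.R304B.Defs

set_option autoImplicit false
set_option linter.unusedSectionVars false
open Finset

namespace Crest.Agent.R304B

variable {V E : Type} [Fintype V] [DecidableEq V] [Fintype E] [DecidableEq E]

lemma glue_nl {ends : E → V × V} {x : E → ℝ} {S : Finset V} {M : Finset E}
    (h : PM (cends ends S) x M) {e : E} (he : e ∈ M) : (ends e).1 ≠ (ends e).2 :=
  fun h' => h.nl e he ((cends_loop ends S e).2 (Or.inr h'))

/-- a perfect matching of `G / S` has one cut edge, the other edges avoid `S` -/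
lemma glue_shape {ends : E → V × V} {x : E → ℝ} {S : Finset V} {M : Finset E}
    (h : PM (cends ends S) x M) :
    ∃ e₁ ∈ M, Cr ends S e₁ ∧ ∀ e ∈ M, e ≠ e₁ → (ends e).1 ∉ S ∧ (ends e).2 ∉ S := by
  obtain ⟨e₁, he₁⟩ := card_eq_one.1 (h.one none)
  have h1 : ∀ e, e ∈ M ∧ Cr ends S e ↔ e = e₁ := by
    intro e
    rw [← mem_singleton, ← he₁, mem_filter, Cr_cends, pre_none]
  refine ⟨e₁, ((h1 e₁).2 rfl).1, ((h1 e₁).2 rfl).2, fun e he hne => ?_⟩
  have h2 : ¬ Cr ends S e := fun h' => hne ((h1 e).1 ⟨he, h'⟩)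
  have h3 : ¬ ((ends e).1 ∈ S ∧ (ends e).2 ∈ S) :=
    fun h' => h.nl e he ((cends_loop ends S e).2 (Or.inl h'))
  unfold Cr at h2
  tauto

lemma glue_one {ends : E → V × V} {x : E → ℝ} {S : Finset V} {M₁ M₂ : Finset E}
    (h : PM (cends ends S) x M₁) {e₁ : E} (he₁ : e₁ ∈ M₁)
    (h₂ : ∀ e ∈ M₂, e ≠ e₁ → (ends e).1 ∈ S ∧ (ends e).2 ∈ S) {v : V} (hv : v ∉ S) :
    ((M₁ ∪ M₂).filter (Cr ends {v})).card = 1 := by
  rw [← h.one (some ⟨v, hv⟩)]
  congr 1
  ext e
  rw [mem_filter, mem_filter, Cr_cends, pre_some, mem_union]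
  refine and_congr_left fun hc => ⟨fun h' => ?_, Or.inl⟩
  rcases h' with h' | h'
  · exact h'
  · by_cases hne : e = e₁
    · exact hne ▸ he₁
    · obtain ⟨h3, h4⟩ := h₂ e h' hne
      rcases ((Cr_singleton ends v e).1 hc).2 with h5 | h5
      · exact absurd (h5 ▸ h3) hv
      · exact absurd (h5 ▸ h4) hv

lemma glue_alpha (P : Finset E → Prop) (c : E → ℝ) : ∃ α : E → ℝ, ∀ e,
    (∀ M, P M → e ∈ M → ∑ a ∈ M, c a ≤ α e) ∧
      ((∃ M, P M ∧ e ∈ M) → ∃ M, P M ∧ e ∈ M ∧ ∑ a ∈ M, c a = α e) := by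
  classical
  have key : ∀ e, ∃ a : ℝ, (∀ M, P M → e ∈ M → ∑ a ∈ M, c a ≤ a) ∧
      ((∃ M, P M ∧ e ∈ M) → ∃ M, P M ∧ e ∈ M ∧ ∑ a ∈ M, c a = a) := by
    intro e
    by_cases h : ∃ M, P M ∧ e ∈ M
    · obtain ⟨M₀, h₀⟩ := h
      obtain ⟨M, hM, hmax⟩ := exists_max_image (univ.filter fun M => P M ∧ e ∈ M)
        (fun M => ∑ a ∈ M, c a) ⟨M₀, mem_filter.2 ⟨mem_univ _, h₀⟩⟩
      exact ⟨_, fun M' h1 h2 => hmax M' (mem_filter.2 ⟨mem_univ _, h1, h2⟩),
        fun _ => ⟨M, (mem_filter.1 hM).2.1, (mem_filter.1 hM).2.2, rfl⟩⟩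
    · exact ⟨0, fun M h1 h2 => absurd ⟨M, h1, h2⟩ h, fun h' => absurd h' h⟩
  choose α hα using key
  exact ⟨α, hα⟩

lemma glue_exists {V' : Type} [Fintype V'] [DecidableEq V'] {ends : E → V' × V'} {x : E → ℝ}
    (h : W ends x) {e : E} (he : (ends e).1 ≠ (ends e).2) (hx : 0 < x e) :
    ∃ M, PM ends x M ∧ e ∈ M := by
  obtain ⟨M, hM, h1⟩ := h fun a => if a = e then 1 else 0
  refine ⟨M, hM, ?_⟩
  by_contra hc
  rw [sum_ite_eq', if_neg hc, sum_eq_single e] at h1
  · rw [if_neg he, if_pos rfl] at h1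
    linarith
  · intro a _ ha
    simp [ha]
  · simp

/-- Gluing along the cut of `S` (no hypothesis on `x` or `S` is needed).

Recipe.  `G₁ = G / S` (`cends ends S`), `G₂ = G / Sᶜ`.  Edges of `G` are: loops (loops in both
contractions), OUTSIDE edges (non-loops with both ends `∉ S`: non-loops of `G₁`, loops of `G₂`),
INSIDE edges (both ends `∈ S`: loops of `G₁`, non-loops of `G₂`) and CUT edges (`Cr ends S e`:
non-loops of both); use `cends_loop`, `Cr_cends`, `pre_none`, `pre_some`, `Cr_compl`.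
A `PM` of `G₁` (resp. `G₂`) consists of exactly one cut edge (`one none`, `pre_none`) and outside
(resp. inside) edges.  Given `c`:
* `α e :=` the maximum of `∑ M₂, c` over the `PM (cends ends Sᶜ) x M₂` with `e ∈ M₂`, when there is
  one (else `0`); only two facts are used: `∑ M₂, c ≤ α e` for such `M₂`, and attainment when
  one exists (`Finset.exists_max_image`, then `choose`).
* If `Cr ends S e` and `0 < x e` such an `M₂ ∋ e` exists: apply `h₂` to the indicator of `e`.
* `h₁` applied to `c₁ = α` on cut edges, `c` elsewhere gives `M₁` with cut edge `e₁` and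
  `∑_out c x + ∑_cut α x ≤ ∑_{M₁ \ e₁} c + α e₁`.
* `h₂` applied to `c₂ = c - α` on cut edges, `c` elsewhere gives `M₂'` with cut edge `e₂` and
  `∑_in c x + ∑_cut (c - α) x ≤ ∑_{M₂'} c - α e₂ ≤ 0`.
* Take `M₂ ∋ e₁` attaining `α e₁` and `M = M₁ ∪ M₂ = (M₁.erase e₁) ⊔ M₂` (disjoint).  It is a `PM`
  of `G`: for `v ∉ S` an edge of `M₂` crossing `{v}` is a cut edge, hence equals `e₁ ∈ M₁`, so
  `M.filter (Cr {v}) = M₁.filter (Cr {v})` has one element (`one (some ⟨v, _⟩)`, `pre_some`);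
  symmetrically for `v ∈ S`.  Adding the two inequalities gives the claim (pointwise in `e`:
  the loop-free weight of `G` is the sum of the loop-free `c₁`- and `c₂`-weights). -/
theorem glue {ends : E → V × V} {x : E → ℝ} (S : Finset V)
    (h₁ : W (cends ends S) x) (h₂ : W (cends ends Sᶜ) x) : W ends x := by
  intro c
  obtain ⟨α, hα⟩ := glue_alpha (PM (cends ends Sᶜ) x) c
  obtain ⟨M₁, hM₁, i₁⟩ := h₁ fun e => if Cr ends S e then α e else c e
  obtain ⟨M', hM', i₂⟩ := h₂ fun e => if Cr ends S e then c e - α e else c e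
  obtain ⟨e₁, he₁, hc₁, ho₁⟩ := glue_shape hM₁
  obtain ⟨e₂, he₂, hc₂, ho₂⟩ := glue_shape hM'
  rw [Cr_compl] at hc₂
  have hnl : (cends ends Sᶜ e₁).1 ≠ (cends ends Sᶜ e₁).2 := by
    intro h
    have h1 := (cends_loop ends Sᶜ e₁).1 h
    have h2 := hc₁.ne
    unfold Cr at hc₁
    simp only [mem_compl] at h1
    tauto
  obtain ⟨M₂, hM₂, he₁', hsum⟩ := (hα e₁).2 (glue_exists h₂ hnl (hM₁.pos e₁ he₁))
  obtain ⟨e₃, -, -, ho₃⟩ := glue_shape hM₂
  have e31 : e₁ = e₃ := by
    by_contra hne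
    have h1 := ho₃ e₁ he₁' hne
    unfold Cr at hc₁
    simp only [mem_compl, not_not] at h1
    tauto
  subst e31
  have ho₃' : ∀ e ∈ M₂, e ≠ e₁ → (ends e).1 ∈ S ∧ (ends e).2 ∈ S := by
    simpa only [mem_compl, not_not] using ho₃
  refine ⟨M₁ ∪ M₂, ⟨fun e he => ?_, fun e he => ?_, fun v => ?_⟩, ?_⟩
  · exact (mem_union.1 he).elim (hM₁.pos e) (hM₂.pos e)
  · exact (mem_union.1 he).elim (glue_nl hM₁) (glue_nl hM₂)
  · by_cases hv : v ∈ S
    · rw [union_comm]
      exact glue_one hM₂ he₁' (by simpa only [mem_compl] using ho₁) (by simpa using hv)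
    · exact glue_one hM₁ he₁ ho₃' hv
  · have s1 : ∑ e ∈ M₁, (if Cr ends S e then α e else c e) = α e₁ + ∑ e ∈ M₁.erase e₁, c e := by
      rw [← add_sum_erase _ _ he₁, if_pos hc₁]
      congr 1
      refine sum_congr rfl fun e he => if_neg ?_
      have h1 := ho₁ e (mem_erase.1 he).2 (mem_erase.1 he).1
      unfold Cr
      tauto
    have s2 : ∑ e ∈ M', (if Cr ends S e then c e - α e else c e) = ∑ e ∈ M', c e - α e₂ := by
      rw [← add_sum_erase _ _ he₂, ← add_sum_erase _ c he₂, if_pos hc₂]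
      have : ∑ e ∈ M'.erase e₂, (if Cr ends S e then c e - α e else c e) =
          ∑ e ∈ M'.erase e₂, c e := by
        refine sum_congr rfl fun e he => if_neg ?_
        have h1 := ho₂ e (mem_erase.1 he).2 (mem_erase.1 he).1
        simp only [mem_compl, not_not] at h1
        unfold Cr
        tauto
      rw [this]
      ring
    have s3 : ∑ e ∈ M₁ ∪ M₂, c e = ∑ e ∈ M₁.erase e₁, c e + ∑ e ∈ M₂, c e := by
      rw [← sum_union]
      · congr 1
        ext e
        simp only [mem_union, mem_erase]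
        by_cases h : e = e₁
        · simp [h, he₁']
        · simp [h]
      · rw [disjoint_left]
        intro e he he'
        exact (ho₁ e (mem_erase.1 he).2 (mem_erase.1 he).1).1 (ho₃' e he' (mem_erase.1 he).1).1
    have s4 : (∑ e, if (ends e).1 = (ends e).2 then 0 else c e * x e) =
        (∑ e, if (cends ends S e).1 = (cends ends S e).2 then 0 else
          (if Cr ends S e then α e else c e) * x e) +
        ∑ e, if (cends ends Sᶜ e).1 = (cends ends Sᶜ e).2 then 0 else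
          (if Cr ends S e then c e - α e else c e) * x e := by
      rw [← sum_add_distrib]
      refine sum_congr rfl fun e _ => ?_
      simp only [cends_loop, mem_compl, Cr]
      by_cases h0 : (ends e).1 = (ends e).2
      · simp [h0]
      · by_cases h1 : (ends e).1 ∈ S <;> by_cases h2 : (ends e).2 ∈ S <;> simp [h0, h1, h2] <;> ring
    have s5 := (hα e₂).1 M' hM' he₂
    linarith

end Crest.Agent.R304B
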