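import Mathlib
import Crest.Agent.R304B.Defs

set_option autoImplicit false
set_option linter.unusedSectionVars false
open Finset

namespace Crest.Agent.R304B

variable {V E : Type} [Fintype V] [DecidableEq V] [Fintype E] [DecidableEq E]

private theorem Tutte_count {ι : Type} {ends : E → V × V} {x : E → ℝ} (h : Feas ends x)
    (I : Finset ι) (S : ι → Finset V) (U : Finset V) (hodd : ∀ i ∈ I, Odd (S i).card)
    (hU : ∀ i ∈ I, ∀ v ∈ S i, v ∉ U) (hdisj : ∀ i ∈ I, ∀ j ∈ I, ∀ v ∈ S i, v ∈ S j → i = j)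
    (hcr : ∀ i ∈ I, ∀ e, 0 < x e → Cr ends (S i) e →
      ((ends e).1 ∈ S i ∧ (ends e).2 ∈ U) ∨ ((ends e).2 ∈ S i ∧ (ends e).1 ∈ U)) :
    I.card ≤ U.card := by
  have key : ∀ e, ∑ i ∈ I, (if Cr ends (S i) e then x e else 0) ≤
      ∑ v ∈ U, (if Cr ends {v} e then x e else 0) := by
    intro e
    have h0 := h.nonneg e
    have hnn : ∀ v ∈ U, 0 ≤ (if Cr ends {v} e then x e else 0) := fun v _ => by positivity
    rcases h0.eq_or_lt with hx | hx
    · simp [← hx]
    by_cases hex : ∃ i ∈ I, Cr ends (S i) e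
    · obtain ⟨i, hi, hc⟩ := hex
      have h1 := hcr i hi e hx hc
      rw [sum_eq_single_of_mem i hi, if_pos hc]
      · rcases h1 with ⟨-, h2⟩ | ⟨-, h2⟩
        · refine le_trans ?_ (single_le_sum hnn h2)
          rw [if_pos ((Cr_singleton _ _ _).2 ⟨hc.ne, Or.inr rfl⟩)]
        · refine le_trans ?_ (single_le_sum hnn h2)
          rw [if_pos ((Cr_singleton _ _ _).2 ⟨hc.ne, Or.inl rfl⟩)]
      · intro j hj hji
        refine if_neg fun hc' => ?_
        rcases h1 with ⟨h2, h3⟩ | ⟨h2, h3⟩ <;> rcases hcr j hj e hx hc' with ⟨h4, h5⟩ | ⟨h4, h5⟩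
        · exact hji (hdisj j hj i hi _ h4 h2)
        · exact hU j hj _ h4 h3
        · exact hU j hj _ h4 h3
        · exact hji (hdisj j hj i hi _ h4 h2)
    · rw [sum_eq_zero fun i hi => if_neg fun hc => hex ⟨i, hi, hc⟩]
      exact sum_nonneg hnn
  have h1 : (I.card : ℝ) ≤ ∑ i ∈ I, cut ends (S i) x := by
    rw [card_eq_sum_ones, Nat.cast_sum]
    exact sum_le_sum fun i hi => by simpa using h.odd _ (hodd i hi)
  have h2 : ∑ v ∈ U, cut ends {v} x = U.card := by simp [h.deg]
  have h3 : ∑ i ∈ I, cut ends (S i) x ≤ ∑ v ∈ U, cut ends {v} x := by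
    unfold cut
    rw [sum_comm, sum_comm (s := U)]
    exact sum_le_sum fun e _ => key e
  exact_mod_cast h1.trans (h3.trans h2.le)

/-- A feasible point has a perfect matching inside its support.

Recipe (Tutte's theorem, Mathlib `SimpleGraph.tutte`, file
`Mathlib/Combinatorics/SimpleGraph/Tutte.lean`:
`(∃ M : G.Subgraph, M.IsPerfectMatching) ↔ ∀ u, ¬ G.IsTutteViolator u`, where
`IsTutteViolator u := u.ncard < ((⊤ : G.Subgraph).deleteVerts u).coe.oddComponents.ncard`).
* `G.Adj a b := a ≠ b ∧ ∃ e, 0 < x e ∧ (ends e = (a, b) ∨ ends e = (b, a))`.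
* No violator: for an odd component `C` of `G - u` let `S_C : Finset V` be the set of vertices of `C`
  (image of `C.supp` under the coercion, `S_C.card = C.supp.ncard` is odd, `S_C` is disjoint from
  `u`, different components give disjoint sets).  `1 ≤ cut ends S_C x` by `h.odd`.  An edge `e` with
  `0 < x e` crossing `S_C` has one end in `S_C` and the other end in `u` (otherwise both ends are
  adjacent in `G - u`, hence in the same component).  So for every edge `e`
  `∑_C (if Cr S_C e then x e else 0) ≤ ∑_{v ∈ u} (if Cr {v} e then x e else 0)`: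
  the left side has at most one nonzero term (the component of the end outside `u`) and then
  the right side contains the term of the end in `u` (`Cr_singleton`).  Summing over `e`:
  `#odd components ≤ ∑_C cut S_C ≤ ∑_{v ∈ u} cut {v} = |u|` (`h.deg`).
* From the perfect matching subgraph `M'` (`M'.IsPerfectMatching ↔ ∀ v, ∃! w, M'.Adj v w`,
  `Subgraph.isPerfectMatching_iff`) choose for every `s ∈ M'.edgeSet` (a `Sym2 V`) one edge
  `φ s : E` with `0 < x (φ s)` and `s(ends.1, ends.2) = s`;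
  `M := univ.filter (fun e => ∃ hs : s((ends e).1, (ends e).2) ∈ M'.edgeSet, e = φ _ hs)`. -/
theorem exists_pm {ends : E → V × V} {x : E → ℝ} (h : Feas ends x) : ∃ M, PM ends x M := by
  classical
  let G : SimpleGraph V :=
    { Adj := fun a b => a ≠ b ∧ ∃ e, 0 < x e ∧ (ends e = (a, b) ∨ ends e = (b, a))
      symm := ⟨fun a b ⟨h1, e, he, h2⟩ => ⟨h1.symm, e, he, h2.symm⟩⟩
      loopless := ⟨fun a h => h.1 rfl⟩ }
  have hT : ∀ u, ¬ G.IsTutteViolator u := by
    intro u
    unfold SimpleGraph.IsTutteViolator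
    rw [not_lt]
    set H := ((⊤ : G.Subgraph).deleteVerts u).coe with hH
    let S : H.ConnectedComponent → Finset V := fun C =>
      (Subtype.val '' C.supp).toFinite.toFinset
    have hmem : ∀ C v, v ∈ S C ↔ ∃ hv : v ∈ ((⊤ : G.Subgraph).deleteVerts u).verts,
        H.connectedComponentMk ⟨v, hv⟩ = C := by
      intro C v
      simp only [S, Set.Finite.mem_toFinset, Set.mem_image,
        SimpleGraph.ConnectedComponent.mem_supp_iff]
      exact ⟨fun ⟨w, hw, e⟩ => e ▸ ⟨w.2, hw⟩, fun ⟨hv, e⟩ => ⟨⟨v, hv⟩, e, rfl⟩⟩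
    have hverts : ∀ v, v ∈ ((⊤ : G.Subgraph).deleteVerts u).verts ↔ v ∉ u := by simp
    have hclosed : ∀ C a b, G.Adj a b → a ∈ S C → b ∉ S C → b ∈ u := by
      intro C a b hab ha hb
      by_contra hbu
      obtain ⟨ha', e⟩ := (hmem C a).1 ha
      refine hb ((hmem C b).2 ⟨(hverts b).2 hbu, ?_⟩)
      rw [← e]
      refine SimpleGraph.ConnectedComponent.connectedComponentMk_eq_of_adj ?_
      simp only [hH, SimpleGraph.Subgraph.coe_adj, SimpleGraph.Subgraph.deleteVerts_adj]
      simp [hbu, (hverts a).1 ha', hab.symm]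
    rw [Set.ncard_eq_toFinset_card _ H.oddComponents.toFinite,
      Set.ncard_eq_toFinset_card _ u.toFinite]
    refine Tutte_count h _ S _ (fun C hC => ?_) (fun C _ v hv => ?_) (fun C _ C' _ v hv hv' => ?_)
      (fun C _ e he hc => ?_)
    · have h1 : Odd C.supp.ncard := (H.oddComponents.toFinite.mem_toFinset (a := C)).1 hC
      rwa [← Set.ncard_image_of_injective _ Subtype.val_injective,
        Set.ncard_eq_toFinset_card _ (Subtype.val '' C.supp).toFinite] at h1
    · rw [Set.Finite.mem_toFinset]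
      exact (hverts v).1 ((hmem C v).1 hv).1
    · obtain ⟨_, e⟩ := (hmem C v).1 hv
      obtain ⟨_, e'⟩ := (hmem C' v).1 hv'
      exact e.symm.trans e'
    · have hadj : G.Adj (ends e).1 (ends e).2 := ⟨hc.ne, e, he, Or.inl rfl⟩
      simp only [Set.Finite.mem_toFinset]
      by_cases h1 : (ends e).1 ∈ S C
      · exact Or.inl ⟨h1, hclosed C _ _ hadj h1 fun h2 => hc ⟨fun _ => h2, fun _ => h1⟩⟩
      · have h2 : (ends e).2 ∈ S C := by
          by_contra h2
          exact hc ⟨fun h => absurd h h1, fun h => absurd h h2⟩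
        exact Or.inr ⟨h2, hclosed C _ _ hadj.symm h2 h1⟩
  obtain ⟨M', hM'⟩ := SimpleGraph.tutte.2 hT
  choose m hm hm' using SimpleGraph.Subgraph.isPerfectMatching_iff.1 hM'
  have hex : ∀ v, ∃ e, 0 < x e ∧ s((ends e).1, (ends e).2) = s(v, m v) := by
    intro v
    obtain ⟨-, e, he, h2 | h2⟩ := M'.adj_sub (hm v)
    · exact ⟨e, he, by rw [h2]⟩
    · exact ⟨e, he, by rw [h2, Sym2.eq_swap]⟩
  have hmm : ∀ v, m (m v) = v := fun v => (hm' (m v) v (hm v).symm).symm
  have hne : ∀ v, v ≠ m v := fun v => (M'.adj_sub (hm v)).1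
  let φ : Sym2 V → Option E := fun s =>
    if h : ∃ e, 0 < x e ∧ s((ends e).1, (ends e).2) = s then some h.choose else none
  have hφ : ∀ v, ∃ e, φ s(v, m v) = some e := fun v => ⟨_, dif_pos (hex v)⟩
  have hφ' : ∀ s e, φ s = some e → 0 < x e ∧ s((ends e).1, (ends e).2) = s := by
    intro s e he
    simp only [φ] at he
    split_ifs at he with h
    rw [← Option.some.inj he]
    exact h.choose_spec
  refine ⟨univ.filter fun e => ∃ v, φ s(v, m v) = some e, fun e he => ?_, fun e he => ?_,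
    fun v => ?_⟩
  · obtain ⟨v, hv⟩ := (mem_filter.1 he).2
    exact (hφ' _ _ hv).1
  · obtain ⟨v, hv⟩ := (mem_filter.1 he).2
    rcases Sym2.eq_iff.1 (hφ' _ _ hv).2 with ⟨h1, h2⟩ | ⟨h1, h2⟩
    · rw [h1, h2]; exact hne v
    · rw [h1, h2]; exact (hne v).symm
  · obtain ⟨e, he⟩ := hφ v
    refine card_eq_one.2 ⟨e, ?_⟩
    ext e'
    simp only [mem_filter, mem_univ, true_and, mem_singleton, Cr_singleton]
    constructor
    · rintro ⟨⟨w, hw⟩, -, h2⟩
      have h3 : v = w ∨ v = m w := by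
        rcases Sym2.eq_iff.1 (hφ' _ _ hw).2 with ⟨h4, h5⟩ | ⟨h4, h5⟩ <;> rcases h2 with h2 | h2
        · exact Or.inl (h2.symm.trans h4)
        · exact Or.inr (h2.symm.trans h5)
        · exact Or.inr (h2.symm.trans h4)
        · exact Or.inl (h2.symm.trans h5)
      have h4 : s(w, m w) = s(v, m v) := by
        rcases h3 with rfl | rfl
        · rfl
        · rw [hmm, Sym2.eq_swap]
      rw [h4, he] at hw
      exact (Option.some.inj hw).symm
    · rintro rfl
      refine ⟨⟨v, he⟩, ?_⟩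
      rcases Sym2.eq_iff.1 (hφ' _ _ he).2 with ⟨h1, h2⟩ | ⟨h1, h2⟩
      · exact ⟨by rw [h1, h2]; exact hne v, Or.inl h1⟩
      · exact ⟨by rw [h1, h2]; exact (hne v).symm, Or.inr h2⟩

end Crest.Agent.R304B
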