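import Mathlib
import Crest.Agent.R304B.Tutte
import Crest.Agent.R304B.Glue

set_option autoImplicit false
set_option linter.unusedSectionVars false
open Finset

namespace Crest.Agent.R304B

/-- Move along a ray until the first constraint becomes tight. -/
lemma exists_move {ι : Type} [Fintype ι] (a b : ι → ℝ) (ha : ∀ i, 0 ≤ a i) (hb : ∃ i, b i < 0) :
    ∃ t : ℝ, 0 ≤ t ∧ (∀ i, 0 ≤ a i + t * b i) ∧ ∃ i, b i < 0 ∧ a i + t * b i = 0 := by
  classical
  obtain ⟨i₀, hi₀⟩ := hb
  obtain ⟨i, hi, hmin⟩ := exists_min_image (univ.filter fun i => b i < 0) (fun i => a i / (-b i))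
    ⟨i₀, by simp [hi₀]⟩
  have hbi : b i < 0 := (mem_filter.1 hi).2
  have ht : 0 ≤ a i / (-b i) := div_nonneg (ha i) (by linarith)
  refine ⟨a i / (-b i), ht, fun j => ?_, i, hbi, ?_⟩
  · by_cases hj : b j < 0
    · have h1 := hmin j (by simp [hj])
      have h2 : a j / (-b j) * (-b j) = a j := div_mul_cancel₀ _ (by linarith)
      nlinarith
    · have := ha j
      have : 0 ≤ b j := not_lt.1 hj
      positivity
  · have : a i / (-b i) * (-b i) = a i := div_mul_cancel₀ _ (by linarith)
    linarith

private lemma edmonds_aux {E : Type} [Fintype E] [DecidableEq E] (n : ℕ) :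
    ∀ (V : Type) [Fintype V] [DecidableEq V] (ends : E → V × V) (x : E → ℝ),
      Fintype.card V + (univ.filter fun e => 0 < x e).card = n → Feas ends x → W ends x := by
  induction n using Nat.strong_induction_on with
  | _ n ih =>
  intro V _ _ ends x hn h c
  obtain ⟨M₀, hM₀⟩ := exists_pm h
  set d : E → ℝ := fun e =>
    if (ends e).1 = (ends e).2 then 0 else x e - (if e ∈ M₀ then 1 else 0) with hd
  -- the loop-free weight of `x + t d`
  have hw : ∀ t : ℝ, (∑ e, if (ends e).1 = (ends e).2 then 0 else c e * (x + t • d) e) =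
      (∑ e, if (ends e).1 = (ends e).2 then 0 else c e * x e) +
        t * ((∑ e, if (ends e).1 = (ends e).2 then 0 else c e * x e) - ∑ e ∈ M₀, c e) := by
    intro t
    have h1 : ∑ e ∈ M₀, c e = ∑ e, if e ∈ M₀ then c e else 0 := by
      rw [← sum_filter]; simp
    rw [h1, ← sum_sub_distrib, mul_sum, ← sum_add_distrib]
    refine sum_congr rfl fun e _ => ?_
    by_cases hl : (ends e).1 = (ends e).2
    · have : e ∉ M₀ := fun he => hM₀.nl e he hl
      simp [hl, this]
    · by_cases he : e ∈ M₀ <;> simp [hd, hl, he] <;> ring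
  by_cases hc : (∑ e, if (ends e).1 = (ends e).2 then 0 else c e * x e) ≤ ∑ e ∈ M₀, c e
  · exact ⟨M₀, hM₀, hc⟩
  push Not at hc
  -- `d` has zero degree
  have hcutM : ∀ S : Finset V, cut ends S d = cut ends S x - (M₀.filter (Cr ends S)).card := by
    intro S
    have h1 : ((M₀.filter (Cr ends S)).card : ℝ) =
        ∑ e, if Cr ends S e then (if e ∈ M₀ then 1 else 0) else 0 := by
      rw [card_filter, Nat.cast_sum]
      have : ∀ e, (if Cr ends S e then (if e ∈ M₀ then (1 : ℝ) else 0) else 0) =
          if e ∈ M₀ then (if Cr ends S e then 1 else 0) else 0 := by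
        intro e
        split_ifs <;> rfl
      simp only [this]
      rw [← sum_filter]
      simp
    rw [h1]
    unfold cut
    rw [← sum_sub_distrib]
    refine sum_congr rfl fun e _ => ?_
    by_cases he : Cr ends S e
    · simp [hd, he, he.ne]
    · simp [he]
  have hdeg : ∀ v, cut ends {v} d = 0 := by
    intro v
    rw [hcutM, h.deg, hM₀.one]
    simp
  -- some edge of `M₀` has weight `< 1`
  have hneg : ∃ e, d e < 0 := by
    by_contra hcon
    push Not at hcon
    have hz : ∀ e, d e = 0 := by
      intro e
      by_cases hl : (ends e).1 = (ends e).2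
      · simp [hd, hl]
      · have h1 := le_cut hcon ((Cr_singleton ends (ends e).1 e).2 ⟨hl, Or.inl rfl⟩)
        rw [hdeg] at h1
        exact le_antisymm h1 (hcon e)
    have h1 := hw 1
    have h2 : x + (1 : ℝ) • d = x := by
      ext e; simp [hz e]
    rw [h2] at h1
    linarith
  obtain ⟨t, ht, hall, i, hi, hti⟩ := exists_move (ι := E ⊕ {S : Finset V // Odd S.card})
    (Sum.elim x fun S => cut ends S.1 x - 1) (Sum.elim d fun S => cut ends S.1 d)
    (by
      rintro (e | S)
      · exact h.nonneg e
      · simpa using h.odd S.1 S.2)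
    (by obtain ⟨e, he⟩ := hneg; exact ⟨Sum.inl e, he⟩)
  set y : E → ℝ := x + t • d with hy
  have hyF : Feas ends y := by
    refine ⟨fun e => ?_, fun v => ?_, fun S hS => ?_⟩
    · simpa [hy] using hall (Sum.inl e)
    · rw [hy, cut_add, cut_smul, hdeg, h.deg]; simp
    · have := hall (Sum.inr ⟨S, hS⟩)
      rw [hy, cut_add, cut_smul]
      simp only [Sum.elim_inr] at this
      linarith
  have hsupp : ∀ e, 0 < y e → 0 < x e := by
    intro e he
    by_contra hx
    have hx0 : x e = 0 := le_antisymm (not_lt.1 hx) (h.nonneg e)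
    have he' : e ∉ M₀ := fun he' => hx (hM₀.pos e he')
    simp [hy, hd, hx0, he'] at he
  have hsub : (univ.filter fun e => 0 < y e) ⊆ univ.filter fun e => 0 < x e := by
    intro e he
    simp only [mem_filter, mem_univ, true_and] at he ⊢
    exact hsupp e he
  have hWy : W ends y := by
    rcases i with e | S
    · simp only [Sum.elim_inl] at hi hti
      have hxe : 0 < x e := by
        by_contra hx
        have hx0 : x e = 0 := le_antisymm (not_lt.1 hx) (h.nonneg e)
        have he' : e ∉ M₀ := fun he' => hx (hM₀.pos e he')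
        simp [hd, hx0, he'] at hi
      have hye : y e = 0 := by simpa [hy] using hti
      have hlt : (univ.filter fun e => 0 < y e).card < (univ.filter fun e => 0 < x e).card := by
        refine card_lt_card ⟨hsub, fun hh => ?_⟩
        have := hh (mem_filter.2 ⟨mem_univ e, hxe⟩)
        simp [hye] at this
      exact ih _ (by omega) V ends y rfl hyF
    · obtain ⟨S, hS⟩ := S
      simp only [Sum.elim_inr] at hi hti
      have htight : cut ends S y = 1 := by
        rw [hy, cut_add, cut_smul]; linarith
      have hSc : Odd Sᶜ.card := h.odd_compl hS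
      have h1 : S.card ≠ 1 := by
        intro h1
        obtain ⟨v, rfl⟩ := card_eq_one.1 h1
        rw [hdeg] at hi
        exact lt_irrefl _ hi
      have h2 : Sᶜ.card ≠ 1 := by
        intro h1
        obtain ⟨v, hv⟩ := card_eq_one.1 h1
        rw [← cut_compl, hv, hdeg] at hi
        exact lt_irrefl _ hi
      have hle := card_le_card hsub
      have c1 := card_ctr S
      have c2 := card_ctr Sᶜ
      have p1 := hS.pos
      have p2 := hSc.pos
      refine glue S (ih _ ?_ _ _ y rfl (hyF.contract hS htight))
        (ih _ ?_ _ _ y rfl (hyF.contract hSc (by rwa [cut_compl]))) <;> omega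
  obtain ⟨M, hM, hcM⟩ := hWy c
  refine ⟨M, hM.mono hsupp, le_trans ?_ hcM⟩
  rw [hy, hw t]
  nlinarith

/-- Edmonds' perfect matching polytope theorem, weighted form. -/
theorem edmonds_w {V E : Type} [Fintype V] [DecidableEq V] [Fintype E] [DecidableEq E]
    {ends : E → V × V} {x : E → ℝ} (h : Feas ends x) : W ends x :=
  edmonds_aux _ V ends x rfl h

end Crest.Agent.R304B
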