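import Mathlib


set_option autoImplicit false
set_option linter.unusedSectionVars false
open Finset

namespace Crest.Agent.R304B

variable {ι : Type} [Fintype ι]

/-- Gibbs' inequality (unnormalised).  Pointwise `-q log q ≤ -q log r + r - q`
(`Real.log_le_sub_one_of_pos` applied to `r / q` when `q > 0`). -/
theorem gibbs (q r : ι → ℝ) (hq : ∀ i, 0 ≤ q i) (hr : ∀ i, 0 ≤ r i)
    (hqr : ∀ i, q i ≠ 0 → r i ≠ 0) :
    ∑ i, Real.negMulLog (q i) ≤ -∑ i, q i * Real.log (r i) + ∑ i, r i - ∑ i, q i := by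
  rw [← sum_neg_distrib, ← sum_add_distrib, ← sum_sub_distrib]
  refine sum_le_sum fun i _ => ?_
  rcases (hq i).eq_or_lt with h | h
  · simp [← h, hr i]
  · have h1 : 0 < r i := (hr i).lt_of_ne' (hqr i h.ne')
    have h2 := Real.log_le_sub_one_of_pos (div_pos h1 h)
    rw [Real.log_div h1.ne' h.ne'] at h2
    have h3 := mul_le_mul_of_nonneg_left h2 h.le
    have h4 : q i * (r i / q i - 1) = r i - q i := by field_simp
    rw [Real.negMulLog]
    linarith

/-- First-order optimality of the entropy along a segment.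

Recipe: let `q_s = (1 - s) q₀ + s q`, `0 < s < 1`.  Then
`ent q_s = (1 - s) (-∑ q₀ log q_s) + s (-∑ q log q_s)` (unfold `negMulLog`) and `gibbs q₀ q_s` gives
`ent q₀ ≤ -∑ q₀ log q_s`; so `h` yields `(*) -∑ q log q_s ≤ ent q₀` for all `s ∈ (0, 1)`.
All terms `-q i * log (q_s i)` are `≥ 0` (`q_s i ∈ [0, 1]`).  If `q i > 0 = q₀ i`, the `i`-th term
is `-q i * log (s * q i)`, larger than `ent q₀` for `s = min (1/2) (exp (-(ent q₀ + 1) / q i))`
(as `q i ≤ 1`): contradiction.  Then let `s → 0⁺` in `(*)`: each term tends to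
`-q i * log (q₀ i)` (it is `0` if `q i = 0`, else `log` is continuous at `q₀ i ≠ 0`);
`le_of_tendsto` along `𝓝[>] 0`. -/
theorem ent_opt (q₀ q : ι → ℝ) (h₀ : ∀ i, 0 ≤ q₀ i) (h₀' : ∑ i, q₀ i = 1) (hq : ∀ i, 0 ≤ q i)
    (hq' : ∑ i, q i = 1)
    (h : ∀ s : ℝ, 0 < s → s < 1 →
      ∑ i, Real.negMulLog ((1 - s) * q₀ i + s * q i) ≤ ∑ i, Real.negMulLog (q₀ i)) :
    (∀ i, q i ≠ 0 → q₀ i ≠ 0) ∧ -∑ i, q i * Real.log (q₀ i) ≤ ∑ i, Real.negMulLog (q₀ i) := by
  have hq1 : ∀ i, q i ≤ 1 := fun i => hq' ▸ single_le_sum (f := q) (fun j _ => hq j) (mem_univ i)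
  have h01 : ∀ i, q₀ i ≤ 1 := fun i =>
    h₀' ▸ single_le_sum (f := q₀) (fun j _ => h₀ j) (mem_univ i)
  have key : ∀ s : ℝ, 0 < s → s < 1 →
      -∑ i, q i * Real.log ((1 - s) * q₀ i + s * q i) ≤ ∑ i, Real.negMulLog (q₀ i) := by
    intro s hs hs'
    have h1 := h s hs hs'
    have h2 := gibbs q₀ (fun i => (1 - s) * q₀ i + s * q i) h₀
      (fun i => add_nonneg (mul_nonneg (by linarith) (h₀ i)) (mul_nonneg hs.le (hq i)))
      fun i hi => (add_pos_of_pos_of_nonneg (mul_pos (by linarith) ((h₀ i).lt_of_ne' hi))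
        (mul_nonneg hs.le (hq i))).ne'
    rw [sum_add_distrib, ← mul_sum, ← mul_sum, h₀', hq'] at h2
    have h3 : ∑ i, Real.negMulLog ((1 - s) * q₀ i + s * q i) =
        (1 - s) * (-∑ i, q₀ i * Real.log ((1 - s) * q₀ i + s * q i)) +
          s * (-∑ i, q i * Real.log ((1 - s) * q₀ i + s * q i)) := by
      rw [← sum_neg_distrib, ← sum_neg_distrib, mul_sum, mul_sum, ← sum_add_distrib]
      exact sum_congr rfl fun i _ => by rw [Real.negMulLog]; ring
    rw [h3] at h1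
    refine le_of_mul_le_mul_left ?_ hs
    nlinarith
  have hsupp : ∀ i, q i ≠ 0 → q₀ i ≠ 0 := by
    intro i hi h0
    have hi' : 0 < q i := (hq i).lt_of_ne' hi
    set E := ∑ i, Real.negMulLog (q₀ i) with hE
    set s := min (1 / 2) (Real.exp (-(E + 1) / q i)) with hs
    have hs0 : 0 < s := lt_min (by norm_num) (Real.exp_pos _)
    have hs1 : s < 1 := (min_le_left _ _).trans_lt (by norm_num)
    have h1 := key s hs0 hs1
    rw [← sum_neg_distrib] at h1
    have h2 := (single_le_sum (f := fun j => -(q j * Real.log ((1 - s) * q₀ j + s * q j)))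
      (fun j _ => neg_nonneg.2 (mul_nonpos_of_nonneg_of_nonpos (hq j) (Real.log_nonpos
        (add_nonneg (mul_nonneg (by linarith) (h₀ j)) (mul_nonneg hs0.le (hq j)))
        (by nlinarith [h01 j, hq1 j])))) (mem_univ i)).trans h1
    simp only [h0, mul_zero, zero_add] at h2
    have h3 : Real.log (s * q i) ≤ -(E + 1) / q i := by
      rw [Real.log_le_iff_le_exp (by positivity)]
      exact (mul_le_of_le_one_right hs0.le (hq1 i)).trans (min_le_right _ _)
    rw [le_div_iff₀ hi'] at h3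
    linarith
  refine ⟨hsupp, ?_⟩
  have ht : Filter.Tendsto (fun s : ℝ => -∑ i, q i * Real.log ((1 - s) * q₀ i + s * q i))
      (nhdsWithin 0 (Set.Ioi 0)) (nhds (-∑ i, q i * Real.log (q₀ i))) := by
    refine Filter.Tendsto.mono_left ?_ nhdsWithin_le_nhds
    refine (tendsto_finsetSum _ fun i _ => ?_).neg
    by_cases hi : q i = 0
    · simp [hi]
    · have h1 : Filter.Tendsto (fun s : ℝ => (1 - s) * q₀ i + s * q i) (nhds 0) (nhds (q₀ i)) := by
        have h2 : Continuous fun s : ℝ => (1 - s) * q₀ i + s * q i := by fun_prop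
        simpa using h2.tendsto 0
      exact (h1.log (hsupp i hi)).const_mul _
  refine le_of_tendsto ht ?_
  filter_upwards [Ioo_mem_nhdsGT (zero_lt_one' ℝ)] with s hs using key s hs.1 hs.2

private theorem ent_cosh {f : ℝ} (hf : |f| ≤ 1) :
    Real.exp f + Real.exp (-f) - 2 ≤ f ^ 2 + f ^ 4 := by
  have h1 := Real.cosh_le_exp_half_sq f
  rw [Real.cosh_eq] at h1
  have h2 : f ^ 2 ≤ 1 := by rw [sq_le_one_iff_abs_le_one]; exact hf
  have h3 := Real.abs_exp_sub_one_sub_id_le (x := f ^ 2 / 2)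
    (by rw [abs_of_nonneg (by positivity)]; linarith)
  have h4 := (abs_le.1 h3).2
  nlinarith [sq_nonneg (f ^ 2)]

private theorem ent_tilt (q₀ p f : ι → ℝ) (h₀ : ∀ i, 0 ≤ q₀ i) (hp : ∀ i, 0 ≤ p i)
    (hp' : ∑ i, p i = 1) (sp : ∀ i, p i ≠ 0 → q₀ i ≠ 0) :
    ∑ i, Real.negMulLog (p i) ≤ -∑ i, p i * Real.log (q₀ i) - ∑ i, p i * f i +
      ∑ i, q₀ i * Real.exp (f i) - 1 := by
  have h1 := gibbs p (fun i => q₀ i * Real.exp (f i)) hp
    (fun i => mul_nonneg (h₀ i) (Real.exp_pos _).le)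
    fun i hi => mul_ne_zero (sp i hi) (Real.exp_pos _).ne'
  have h2 : ∑ i, p i * Real.log (q₀ i * Real.exp (f i)) =
      ∑ i, p i * Real.log (q₀ i) + ∑ i, p i * f i := by
    rw [← sum_add_distrib]
    refine sum_congr rfl fun i _ => ?_
    by_cases hi : p i = 0
    · simp [hi]
    · rw [Real.log_mul (sp i hi) (Real.exp_pos _).ne', Real.log_exp, mul_add]
  rw [h2, hp'] at h1
  linarith

/-- Two-point bound.  Recipe: `gibbs p (q₀ * exp f)` and `gibbs n (q₀ * exp (-f))`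
(`log (q₀ i * exp (f i)) = log (q₀ i) + f i` when `q₀ i ≠ 0`; terms with `p i = 0` vanish), and
`exp f + exp (-f) - 2 = 2 cosh f - 2 ≤ f ^ 2 + f ^ 4` for `|f| ≤ 1` (`Real.cosh_le_exp_half_sq`,
`Real.abs_exp_sub_one_sub_id_le`). -/
theorem two_point (q₀ p n f : ι → ℝ) (h₀ : ∀ i, 0 ≤ q₀ i) (h₀' : ∑ i, q₀ i = 1)
    (hp : ∀ i, 0 ≤ p i) (hp' : ∑ i, p i = 1) (hn : ∀ i, 0 ≤ n i) (hn' : ∑ i, n i = 1)
    (sp : ∀ i, p i ≠ 0 → q₀ i ≠ 0) (sn : ∀ i, n i ≠ 0 → q₀ i ≠ 0)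
    (hopt : -∑ i, (1 / 2 * p i + 1 / 2 * n i) * Real.log (q₀ i) ≤ ∑ i, Real.negMulLog (q₀ i))
    (hf : ∀ i, |f i| ≤ 1) :
    ∑ i, Real.negMulLog (p i) + ∑ i, Real.negMulLog (n i) ≤
      2 * ∑ i, Real.negMulLog (q₀ i) - ∑ i, p i * f i + ∑ i, n i * f i +
        ∑ i, q₀ i * (f i ^ 2 + f i ^ 4) := by
  have h1 := ent_tilt q₀ p f h₀ hp hp' sp
  have h2 := ent_tilt q₀ n (fun i => -f i) h₀ hn hn' sn
  have h3 : ∑ i, (1 / 2 * p i + 1 / 2 * n i) * Real.log (q₀ i) =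
      1 / 2 * ∑ i, p i * Real.log (q₀ i) + 1 / 2 * ∑ i, n i * Real.log (q₀ i) := by
    rw [mul_sum, mul_sum, ← sum_add_distrib]
    exact sum_congr rfl fun i _ => by ring
  have h4 : ∑ i, q₀ i * Real.exp (f i) + ∑ i, q₀ i * Real.exp (-f i) - 2 * ∑ i, q₀ i ≤
      ∑ i, q₀ i * (f i ^ 2 + f i ^ 4) := by
    rw [mul_sum, ← sum_add_distrib, ← sum_sub_distrib]
    refine sum_le_sum fun i _ => ?_
    have := mul_le_mul_of_nonneg_left (ent_cosh (hf i)) (h₀ i)
    linarith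
  simp only [mul_neg, sum_neg_distrib] at h2
  rw [h₀'] at h4
  rw [h3] at hopt
  linarith

private theorem ent_log {t : ℝ} (ht : |t| ≤ 1 / 2) :
    |Real.log (1 - t) + t + t ^ 2 / 2| ≤ 2 * |t| ^ 3 := by
  have h1 := Real.abs_log_sub_add_sum_range_le (x := t) (by linarith) 2
  simp only [sum_range_succ, range_zero, sum_empty] at h1
  have h2 : |t| ^ (2 + 1) / (1 - |t|) ≤ 2 * |t| ^ 3 := by
    rw [div_le_iff₀ (by linarith)]
    have h3 := mul_le_mul_of_nonneg_left ht (pow_nonneg (abs_nonneg t) 3)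
    norm_num
    linarith
  refine le_trans (le_of_eq ?_) (h1.trans h2)
  congr 1
  push_cast
  ring

/-- Second difference of `-x log x`.  Recipe: with `t = u / x`, `|t| ≤ 1/2`, the expression inside
the absolute value is `-x * ((1 + t) log (1 + t) + (1 - t) log (1 - t) - t ^ 2)`
(`x ± u = x (1 ± t)`, `Real.log_mul`); `Real.abs_log_sub_add_sum_range_le` with `n = 2` at `t` and
`-t` gives `log (1 ∓ t) = ∓t - t ^ 2 / 2 + e`, `|e| ≤ 2 |t| ^ 3`, so the bracket is at most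
`(1 + t) 2 |t|^3 + (1 - t) 2 |t|^3 = 4 |t|^3` in absolute value. -/
theorem negMulLog_second_diff {x u : ℝ} (hx : 0 < x) (hu : |u| ≤ x / 2) :
    |Real.negMulLog (x + u) + Real.negMulLog (x - u) - 2 * Real.negMulLog x + u ^ 2 / x| ≤
      4 * |u| ^ 3 / x ^ 2 := by
  obtain ⟨t, rfl⟩ : ∃ t, u = x * t := ⟨u / x, by field_simp⟩
  rw [abs_mul, abs_of_pos hx] at hu ⊢
  have ht : |t| ≤ 1 / 2 := le_of_mul_le_mul_left (by linarith) hx
  have ht' := abs_le.1 ht
  have h1 := ent_log ht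
  have h2 := ent_log (t := -t) (by rwa [abs_neg])
  rw [abs_neg, sub_neg_eq_add] at h2
  have e : Real.negMulLog (x + x * t) + Real.negMulLog (x - x * t) - 2 * Real.negMulLog x +
      (x * t) ^ 2 / x = -x * ((1 + t) * (Real.log (1 + t) + -t + (-t) ^ 2 / 2) +
        (1 - t) * (Real.log (1 - t) + t + t ^ 2 / 2)) := by
    rw [show x + x * t = x * (1 + t) by ring, show x - x * t = x * (1 - t) by ring]
    simp only [Real.negMulLog]
    rw [Real.log_mul hx.ne' (by linarith), Real.log_mul hx.ne' (by linarith)]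
    field_simp
    ring
  rw [e, abs_mul, abs_neg, abs_of_pos hx,
    show 4 * (x * |t|) ^ 3 / x ^ 2 = x * (4 * |t| ^ 3) by field_simp]
  refine mul_le_mul_of_nonneg_left ((abs_add_le _ _).trans ?_) hx.le
  rw [abs_mul, abs_mul, abs_of_nonneg (by linarith : 0 ≤ 1 + t),
    abs_of_nonneg (by linarith : 0 ≤ 1 - t)]
  have h3 := mul_le_mul_of_nonneg_left h1 (by linarith : 0 ≤ 1 - t)
  have h4 := mul_le_mul_of_nonneg_left h2 (by linarith : 0 ≤ 1 + t)
  linarith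

end Crest.Agent.R304B
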