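import Mathlib
import Crest.Agent.R304B.Defs

set_option autoImplicit false
set_option linter.unusedSectionVars false
open Finset

namespace Crest.Agent.R304B

variable {V E : Type} [Fintype V] [DecidableEq V] [Fintype E] [DecidableEq E]

/-- directions vanishing off the positive coordinates and on the tight odd cuts are feasible -/
theorem face_dir {ends : E → V × V} {x g : E → ℝ} (h : Feas ends x) (h0 : ∀ e, x e = 0 → g e = 0)
    (h1 : ∀ S : Finset V, Odd S.card → cut ends S x = 1 → cut ends S g = 0) :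
    ∃ ε : ℝ, 0 < ε ∧ ∀ t : ℝ, |t| < ε → Feas ends (x + t • g) := by
  have key : ∀ a b : ℝ, 0 ≤ a → (a = 0 → b = 0) → ∀ᶠ t in nhds (0 : ℝ), 0 ≤ a + t * b := by
    intro a b ha hab
    rcases ha.eq_or_lt with ha | ha
    · exact Filter.Eventually.of_forall fun t => by rw [hab ha.symm, ← ha]; simp
    · have hc : Continuous fun t : ℝ => a + t * b := by fun_prop
      have := hc.continuousAt (x := 0) |>.eventually (lt_mem_nhds (a := 0) (by simpa using ha))
      exact this.mono fun t ht => ht.le
  have a1 : ∀ᶠ t in nhds (0 : ℝ), ∀ e, 0 ≤ x e + t * g e :=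
    Filter.eventually_all.2 fun e => key _ _ (h.nonneg e) (h0 e)
  have a2 : ∀ᶠ t in nhds (0 : ℝ), ∀ S : Finset V, Odd S.card →
      0 ≤ cut ends S x - 1 + t * cut ends S g := by
    refine Filter.eventually_all.2 fun S => ?_
    by_cases hS : Odd S.card
    · exact (key _ _ (sub_nonneg.2 (h.odd S hS)) fun h' => h1 S hS (by linarith)).mono
        fun t ht _ => ht
    · exact Filter.Eventually.of_forall fun t h' => absurd h' hS
  obtain ⟨ε, hε, h2⟩ := Metric.eventually_nhds_iff.1 (a1.and a2)
  refine ⟨ε, hε, fun t ht => ?_⟩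
  obtain ⟨b1, b2⟩ := h2 (y := t) (by simpa [Real.dist_eq] using ht)
  refine ⟨fun e => b1 e, fun v => ?_, fun S hS => ?_⟩
  · rw [cut_add, cut_smul, h.deg v, h1 {v} (by simp) (h.deg v), mul_zero, add_zero]
  · rw [cut_add, cut_smul]
    linarith [b2 S hS]

/-- A large space of two-sided feasible directions.

Recipe.  `F = {e | 0 < x e < 1} = {e | fw x e ≠ 0}` (`fw_ne_zero`).  Let
`ι : (F → ℝ) →ₗ (E → ℝ)`, `ι u e = if e ∈ F then fw x e * u e else 0` (injective), and
`Ψ : (F → ℝ) →ₗ Module.Dual ℝ (tsp ends x)`, `Ψ u g = ∑ e : F, g e * u e`.  Put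
`L = (ker Ψ).map ι`.  Then `finrank L = finrank (ker Ψ)`
(`Submodule.equivMapOfInjective`/`LinearEquiv.finrank_eq`), and rank-nullity
(`LinearMap.finrank_range_add_finrank_ker`, `Subspace.dual_finrank_eq`, `Submodule.finrank_le`)
gives `|F| ≤ finrank L + finrank tsp`.  For `g = ι u ∈ L`: `g` vanishes off `F`, and
`cut ends S g = Ψ u (cv ends x S) = 0` for every odd tight `S` (in particular singletons).  So for
`|t|` small `x + t • g` is feasible (`cut_add`, `cut_smul`): finitely many strict inequalities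
(`0 < x e` on `F`, `1 < cut S x` for odd non-tight `S`) persist; use
`Filter.eventually_all` at `𝓝 (0 : ℝ)` and `Metric.eventually_nhds_iff`. -/
theorem exists_face {ends : E → V × V} {x : E → ℝ} (h : Feas ends x) :
    ∃ L : Submodule ℝ (E → ℝ),
      (∀ g ∈ L, ∃ ε : ℝ, 0 < ε ∧ ∀ t : ℝ, |t| < ε → Feas ends (x + t • g)) ∧
      (univ.filter fun e => 0 < x e ∧ x e < 1).card ≤
        Module.finrank ℝ L + Module.finrank ℝ (tsp ends x) := by
  classical
  let F := {e // 0 < x e ∧ x e < 1}
  let ι : (F → ℝ) →ₗ[ℝ] (E → ℝ) :=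
    { toFun := fun u e => if he : 0 < x e ∧ x e < 1 then fw x e * u ⟨e, he⟩ else 0
      map_add' := fun u v => by
        funext e
        simp only [Pi.add_apply]
        split_ifs
        · ring
        · simp
      map_smul' := fun c u => by
        funext e
        simp only [Pi.smul_apply, smul_eq_mul, RingHom.id_apply]
        split_ifs
        · ring
        · simp }
  have hι : ∀ (u : F → ℝ) (e : F), ι u e.1 = fw x e.1 * u e := fun u e => dif_pos e.2
  have hι0 : ∀ (u : F → ℝ) (e : E), ¬ (0 < x e ∧ x e < 1) → ι u e = 0 := fun u e he => dif_neg he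
  have hinj : Function.Injective ι := by
    intro u v huv
    funext e
    have h1 := congrFun huv e.1
    rw [hι, hι] at h1
    exact mul_left_cancel₀ ((fw_ne_zero h.nonneg e.1).2 e.2) h1
  let Ψ : (F → ℝ) →ₗ[ℝ] Module.Dual ℝ (tsp ends x) :=
    LinearMap.mk₂ ℝ (fun u g => ∑ e : F, g.1 e.1 * u e)
      (fun u v g => by simp only [Pi.add_apply, mul_add, sum_add_distrib])
      (fun c u g => by
        simp only [Pi.smul_apply, smul_eq_mul, mul_sum]
        exact sum_congr rfl fun e _ => by ring)
      (fun u g g' => by simp only [Submodule.coe_add, Pi.add_apply, add_mul, sum_add_distrib])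
      (fun c u g => by
        simp only [Submodule.coe_smul, Pi.smul_apply, smul_eq_mul, mul_sum]
        exact sum_congr rfl fun e _ => by ring)
  refine ⟨(LinearMap.ker Ψ).map ι, ?_, ?_⟩
  · rintro g ⟨u, hu, rfl⟩
    refine face_dir h (fun e he => hι0 u e fun h' => h'.1.ne' he) fun S hS hS1 => ?_
    have h1 : Ψ u ⟨cv ends x S, Submodule.subset_span ⟨S, hS, hS1, rfl⟩⟩ = 0 := by
      rw [LinearMap.mem_ker.1 hu]
      rfl
    have h2 : ∑ e : F, cv ends x S e.1 * u e = 0 := h1
    rw [← h2]
    unfold cut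
    rw [← Fintype.sum_subtype_add_sum_subtype (fun e => 0 < x e ∧ x e < 1)]
    have h3 : ∑ e : {e // ¬ (0 < x e ∧ x e < 1)}, (if Cr ends S e.1 then ι u e.1 else 0) = 0 :=
      sum_eq_zero fun e _ => by rw [hι0 u e.1 e.2, ite_self]
    rw [h3, add_zero]
    refine sum_congr rfl fun e _ => ?_
    rw [hι u e]
    unfold cv
    split_ifs <;> simp
  · have h1 := LinearMap.finrank_range_add_finrank_ker Ψ
    have h2 : Module.finrank ℝ (LinearMap.range Ψ) ≤ Module.finrank ℝ (tsp ends x) :=
      (Submodule.finrank_le _).trans_eq Subspace.dual_finrank_eq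
    have h3 : Module.finrank ℝ (LinearMap.ker Ψ) = Module.finrank ℝ ((LinearMap.ker Ψ).map ι) :=
      (Submodule.equivMapOfInjective ι hinj _).finrank_eq
    have h4 : Module.finrank ℝ (F → ℝ) = (univ.filter fun e => 0 < x e ∧ x e < 1).card := by
      rw [Module.finrank_fintype_fun_eq_card, Fintype.card_subtype]
    omega

/-- The feasible set looks like a cone near `x`.  Recipe: each of the finitely many affine
constraints `A y ≥ 0` (coordinates; `cut S y - 1` for odd `S`) satisfies
`A (x + s⁻¹ • (y - x)) = A x + s⁻¹ (A y - A x)`.  If `A x = 0` this is `s⁻¹ A y ≥ 0` for feasible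
`y`; if `A x > 0` it is positive for `y` near `x` by continuity (`continuous_cut`).  Degrees:
`1 + s⁻¹ (1 - 1) = 1` (`cut_add`, `cut_smul`, `cut_sub`).  Combine with `Filter.eventually_all`. -/
theorem feas_cone {ends : E → V × V} {x : E → ℝ} (h : Feas ends x) {s : ℝ} (hs : 0 < s) :
    ∀ᶠ y in nhds x, Feas ends y → Feas ends (x + s⁻¹ • (y - x)) := by
  have hs' : 0 ≤ s⁻¹ := (inv_pos.2 hs).le
  have key : ∀ A : (E → ℝ) → ℝ, Continuous A → 0 ≤ A x →
      ∀ᶠ y in nhds x, 0 ≤ A y → 0 ≤ A x + s⁻¹ * (A y - A x) := by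
    intro A hA hx
    rcases hx.eq_or_lt with hx | hx
    · exact Filter.Eventually.of_forall fun y hy => by
        rw [← hx, zero_add, sub_zero]
        exact mul_nonneg hs' hy
    · have hc : Continuous fun y => A x + s⁻¹ * (A y - A x) := by fun_prop
      have := hc.continuousAt (x := x) |>.eventually (lt_mem_nhds (a := 0) (by simpa using hx))
      exact this.mono fun y hy _ => hy.le
  have a1 : ∀ᶠ y in nhds x, ∀ e, 0 ≤ y e → 0 ≤ x e + s⁻¹ * (y e - x e) :=
    Filter.eventually_all.2 fun e => key (fun y => y e) (continuous_apply e) (h.nonneg e)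
  have a2 : ∀ᶠ y in nhds x, ∀ S : Finset V, Odd S.card → 0 ≤ cut ends S y - 1 →
      0 ≤ cut ends S x - 1 + s⁻¹ * (cut ends S y - 1 - (cut ends S x - 1)) := by
    refine Filter.eventually_all.2 fun S => ?_
    by_cases hS : Odd S.card
    · exact (key (fun y => cut ends S y - 1) ((continuous_cut ends S).sub continuous_const)
        (sub_nonneg.2 (h.odd S hS))).mono fun y hy _ => hy
    · exact Filter.Eventually.of_forall fun t h' => absurd h' hS
  filter_upwards [a1, a2] with y b1 b2 hy
  refine ⟨fun e => b1 e (hy.nonneg e), fun v => ?_, fun S hS => ?_⟩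
  · rw [cut_add, cut_smul, cut_sub, h.deg v, hy.deg v, sub_self, mul_zero, add_zero]
  · rw [cut_add, cut_smul, cut_sub]
    have := b2 S hS (sub_nonneg.2 (hy.odd S hS))
    rw [sub_sub_sub_cancel_right] at this
    linarith

end Crest.Agent.R304B
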