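import Mathlib
import Crest.Agent.R304B.Defs

set_option autoImplicit false
set_option linter.unusedSectionVars false
open Finset

namespace Crest.Agent.R304B

section
variable {V E : Type} [Fintype V] [DecidableEq V] [Fintype E] [DecidableEq E]

omit [Fintype V] [Fintype E] [DecidableEq E] in
private lemma uncross_pt (ends : E → V × V) (S T : Finset V) (e : E) {w : ℝ} (hw : 0 ≤ w) :
    ((if Cr ends (S ∩ T) e then w else 0) + if Cr ends (S ∪ T) e then w else 0)
      ≤ (if Cr ends S e then w else 0) + if Cr ends T e then w else 0 := by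
  unfold Cr
  simp only [mem_inter, mem_union]
  by_cases h1 : (ends e).1 ∈ S <;> by_cases h2 : (ends e).2 ∈ S <;>
    by_cases h3 : (ends e).1 ∈ T <;> by_cases h4 : (ends e).2 ∈ T <;> simp [h1, h2, h3, h4, hw]

/-- Uncrossing.  Recipe: pointwise, for every edge `e` with weight `w ≥ 0`,
`[Cr (S ∩ T)] w + [Cr (S ∪ T)] w ≤ [Cr S] w + [Cr T] w` (cases on the four memberships).  Summing,
`cut (S ∩ T) + cut (S ∪ T) ≤ 2`; both sets are odd (`card_union_add_card_inter`), so both cuts are
`≥ 1`, hence `= 1`, and equality holds for every edge with `w = x e`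
(`Finset.sum_eq_sum_iff_of_le`); since `fw x e` is `x e` or `0`, it also holds with `w = fw x e`. -/
theorem uncross {ends : E → V × V} {x : E → ℝ} (h : Feas ends x) {S T : Finset V}
    (hS : Odd S.card) (hT : Odd T.card) (hST : Odd (S ∩ T).card)
    (tS : cut ends S x = 1) (tT : cut ends T x = 1) :
    Odd (S ∪ T).card ∧ cut ends (S ∩ T) x = 1 ∧ cut ends (S ∪ T) x = 1 ∧
      cv ends x T + cv ends x S = cv ends x (S ∩ T) + cv ends x (S ∪ T) := by
  have hU : Odd (S ∪ T).card := by
    have := card_union_add_card_inter S T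
    rw [Nat.odd_iff] at *
    omega
  have h1 := h.odd _ hST
  have h2 := h.odd _ hU
  have hle : ∀ e ∈ (univ : Finset E),
      ((if Cr ends (S ∩ T) e then x e else 0) + if Cr ends (S ∪ T) e then x e else 0)
      ≤ (if Cr ends S e then x e else 0) + if Cr ends T e then x e else 0 :=
    fun e _ => uncross_pt ends S T e (h.nonneg e)
  have hs := sum_le_sum hle
  rw [sum_add_distrib, sum_add_distrib] at hs
  change cut ends (S ∩ T) x + cut ends (S ∪ T) x ≤ cut ends S x + cut ends T x at hs
  have e1 : cut ends (S ∩ T) x = 1 := by linarith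
  have e2 : cut ends (S ∪ T) x = 1 := by linarith
  refine ⟨hU, e1, e2, ?_⟩
  have heq := (sum_eq_sum_iff_of_le hle).1 (by
    rw [sum_add_distrib, sum_add_distrib]
    change cut ends (S ∩ T) x + cut ends (S ∪ T) x = cut ends S x + cut ends T x
    rw [e1, e2, tS, tT])
  funext e
  have he := heq e (mem_univ e)
  simp only [Pi.add_apply, cv, fw]
  by_cases hx : x e < 1
  · simp only [hx, if_true]
    linarith
  · simp [hx]

private lemma cv_mem_cends {ends : E → V × V} {x : E → ℝ} {S U : Finset V} (hS : Odd S.card)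
    (hU : Odd U.card) (tU : cut ends U x = 1) (hSU : S ⊆ U) :
    cv ends x U ∈ tsp (cends ends S) x := by
  obtain ⟨T', h1, h2⟩ := exists_pre hSU
  refine Submodule.subset_span ⟨T', ?_, ?_, ?_⟩
  · rw [Nat.odd_iff] at *
    omega
  · rw [cut_cends, h1, tU]
  · rw [cv_cends, h1]

private lemma cv_mem_sup {ends : E → V × V} {x : E → ℝ} (h : Feas ends x) {S T : Finset V}
    (hS : Odd S.card) (tS : cut ends S x = 1) (hT : Odd T.card) (tT : cut ends T x = 1)
    (hST : Odd (S ∩ T).card) :
    cv ends x T ∈ tsp (cends ends S) x ⊔ tsp (cends ends Sᶜ) x := by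
  obtain ⟨hU, e1, e2, e3⟩ := uncross h hS hT hST tS tT
  have h1 : cv ends x T = cv ends x (S ∩ T)ᶜ + cv ends x (S ∪ T) - cv ends x S := by
    rw [cv_compl, ← e3, add_sub_cancel_right]
  rw [h1]
  refine Submodule.sub_mem _ (Submodule.add_mem _ ?_ ?_) ?_
  · exact Submodule.mem_sup_right (cv_mem_cends (h.odd_compl hS) (h.odd_compl hST)
      (by rw [cut_compl, e1]) (compl_subset_compl.2 inter_subset_left))
  · exact Submodule.mem_sup_left (cv_mem_cends hS hU e2 subset_union_left)
  · exact Submodule.mem_sup_left (cv_mem_cends hS hS tS Subset.rfl)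

/-- Recipe: a generator `cv T` (`T` odd and tight).  Replacing `T` by `Tᶜ` (`cv_compl`, `cut_compl`,
`Feas.odd_compl`) we may assume `S ∩ T` odd (`|S ∩ T| + |S ∩ Tᶜ| = |S|`).  Then
`cv T = cv (S ∩ T) + cv (S ∪ T) - cv S` by `uncross`.  For an odd tight `U ⊇ S`, `cv U` lies in
`tsp (cends ends S) x` (`exists_pre`, `cv_cends`, `cut_cends`, parity from the cardinality formula):
use it for `U = S ∪ T` and `U = S`; and with `Sᶜ` in place of `S` for `U = (S ∩ T)ᶜ ⊇ Sᶜ`. -/
theorem tsp_le_sup {ends : E → V × V} {x : E → ℝ} (h : Feas ends x) {S : Finset V}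
    (hS : Odd S.card) (tS : cut ends S x = 1) :
    tsp ends x ≤ tsp (cends ends S) x ⊔ tsp (cends ends Sᶜ) x := by
  refine Submodule.span_le.2 ?_
  rintro _ ⟨T, hT, tT, rfl⟩
  by_cases hST : Odd (S ∩ T).card
  · exact cv_mem_sup h hS tS hT tT hST
  · have h1 : Odd (S ∩ Tᶜ).card := by
      have := card_inter_add_card_sdiff S T
      rw [sdiff_eq_inter_compl] at this
      rw [Nat.odd_iff] at *
      omega
    rw [← cv_compl]
    exact cv_mem_sup h hS tS (h.odd_compl hT) (by rw [cut_compl, tT]) h1

/-- every edge at an active vertex weighs less than one -/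
private lemma lt_one_of_act {ends : E → V × V} {x : E → ℝ} (h : Feas ends x) {v : V}
    (hv : v ∈ act ends x) {e : E} (he : Cr ends {v} e) : x e < 1 := by
  obtain ⟨e₀, h0, h1⟩ := mem_act.1 hv
  rw [fw_ne_zero h.nonneg] at h1
  by_cases hee : e = e₀
  · rw [hee]
    exact h1.2
  · have h2 : ∑ f ∈ ({e, e₀} : Finset E), x f ≤ cut ends {v} x := by
      rw [cut_eq_filter]
      refine sum_le_sum_of_subset_of_nonneg (fun f hf => ?_) fun f _ _ => h.nonneg f
      simp only [mem_insert, mem_singleton] at hf
      rcases hf with rfl | rfl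
      · simpa using he
      · simpa using h0
    rw [sum_pair hee, h.deg] at h2
    linarith [h1.1]

omit [DecidableEq E] in
private lemma sum_cut_singleton {ends : E → V × V} (hends : ∀ e, (ends e).1 ≠ (ends e).2)
    (w : E → ℝ) : ∑ v, cut ends {v} w = 2 * ∑ e, w e := by
  unfold cut
  rw [sum_comm, mul_sum]
  refine sum_congr rfl fun e _ => ?_
  have h1 : ∀ v, (if Cr ends {v} e then w e else 0)
      = (if (ends e).1 = v then w e else 0) + if (ends e).2 = v then w e else 0 := by
    intro v
    have := hends e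
    by_cases h1 : (ends e).1 = v <;> by_cases h2 : (ends e).2 = v
    · exact absurd (h1.trans h2.symm) this
    all_goals simp [Cr_singleton, h1, h2, this]
    · intro h3
      exact absurd h3.symm h2
  simp only [h1, sum_add_distrib, sum_ite_eq, mem_univ, if_true]
  ring

/-- The number of active vertices is even.  Recipe: if `v` is active (an edge `e₀` at `v` with
`0 < x e₀ < 1`) then every non-loop edge `e` at `v` has `x e < 1` (`e = e₀`, or
`x e + x e₀ ≤ cut {v} = 1`), so if `0 < x e` then both ends of `e` are active (`mem_act`,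
`fw_ne_zero`, `Cr_singleton`).  Hence `cut ends (act ends x) x = 0`, and `act` is not odd. -/
theorem even_card_act {ends : E → V × V} {x : E → ℝ} (h : Feas ends x) :
    Even (act ends x).card := by
  by_contra hodd
  rw [Nat.not_even_iff_odd] at hodd
  have h1 := h.odd _ hodd
  have h2 : cut ends (act ends x) x = 0 := by
    refine sum_eq_zero fun e _ => ?_
    split_ifs with hc
    · by_contra hx
      have hpos : 0 < x e := lt_of_le_of_ne (h.nonneg e) (Ne.symm hx)
      have c1 : Cr ends {(ends e).1} e := (Cr_singleton _ _ _).2 ⟨hc.ne, Or.inl rfl⟩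
      have c2 : Cr ends {(ends e).2} e := (Cr_singleton _ _ _).2 ⟨hc.ne, Or.inr rfl⟩
      refine hc ⟨fun hv => ?_, fun hv => ?_⟩
      · exact mem_act.2 ⟨e, c2, (fw_ne_zero h.nonneg e).2 ⟨hpos, lt_one_of_act h hv c1⟩⟩
      · exact mem_act.2 ⟨e, c1, (fw_ne_zero h.nonneg e).2 ⟨hpos, lt_one_of_act h hv c2⟩⟩
    · rfl
  linarith

/-- Recipe: as above, `cut ends {v} (fw x)` is `1` for active `v` (all edges at `v` have
`fw x e = x e`) and `0` for inactive `v`; and `∑ v, cut ends {v} w = 2 * ∑ e, w e` for a loopless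
graph (every edge crosses exactly two singletons). -/
theorem card_act {ends : E → V × V} {x : E → ℝ} (h : Feas ends x)
    (hends : ∀ e, (ends e).1 ≠ (ends e).2) : ((act ends x).card : ℝ) = 2 * ∑ e, fw x e := by
  rw [← sum_cut_singleton hends]
  have h1 : ∀ v, cut ends {v} (fw x) = if v ∈ act ends x then 1 else 0 := by
    intro v
    split_ifs with hv
    · rw [← h.deg v]
      refine sum_congr rfl fun e _ => ?_
      split_ifs with hc
      · simp [fw, lt_one_of_act h hv hc]
      · rfl
    · refine sum_eq_zero fun e _ => ?_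
      split_ifs with hc
      · by_contra hx
        exact hv (mem_act.2 ⟨e, hc, hx⟩)
      · rfl
  simp [h1]

/-- Handshake (same double counting): `|V| = 2 ∑ x`. -/
theorem card_eq_two_sum {ends : E → V × V} {x : E → ℝ} (h : Feas ends x)
    (hends : ∀ e, (ends e).1 ≠ (ends e).2) : (Fintype.card V : ℝ) = 2 * ∑ e, x e := by
  rw [← sum_cut_singleton hends]
  simp [h.deg]

end

end Crest.Agent.R304B
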