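import Mathlib
import Crest.Agent.R304B.Uncross

set_option autoImplicit false
set_option linter.unusedSectionVars false
open Finset

namespace Crest.Agent.R304B

section
variable {V E : Type} [Fintype V] [DecidableEq V] [Fintype E] [DecidableEq E]

lemma Rank_mem_act {ends : E → V × V} {x : E → ℝ} {v : V} :
    v ∈ act ends x ↔ cv ends x {v} ≠ 0 := by
  simp [act]

open Classical in
lemma Rank_card_act (ends : E → V × V) (x : E → ℝ) (S : Finset V) :
    (act (cends ends S) x).card = (act ends x \ S).card + if cv ends x S = 0 then 0 else 1 := by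
  have h1 : pre S ((act (cends ends S) x).erase none) = act ends x \ S := by
    ext v
    rw [mem_pre, mem_erase, ne_eq, ctr_eq_none, mem_sdiff, and_comm]
    refine and_congr_left fun hv => ?_
    rw [ctr_of_notMem hv, Rank_mem_act, Rank_mem_act, cv_cends, pre_some]
  have h2 : none ∈ act (cends ends S) x ↔ cv ends x S ≠ 0 := by
    rw [Rank_mem_act, cv_cends, pre_none]
  rw [← h1, card_pre_of_notMem (notMem_erase _ _)]
  split_ifs with h
  · rw [erase_eq_of_notMem (fun h' => h2.1 h' h), add_zero]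
  · rw [card_erase_add_one (h2.2 h)]

lemma Rank_cv_mem {ends : E → V × V} {x : E → ℝ} {S : Finset V} (tS : cut ends S x = 1) :
    cv ends x S ∈ tsp (cends ends S) x :=
  Submodule.subset_span ⟨{none}, by simp, by rw [cut_cends, pre_none, tS],
    by rw [cv_cends, pre_none]⟩

lemma Rank_act_of_Cr {ends : E → V × V} {x : E → ℝ} {e : E} (hne : (ends e).1 ≠ (ends e).2)
    (he : fw x e ≠ 0) : (ends e).1 ∈ act ends x ∧ (ends e).2 ∈ act ends x :=
  ⟨mem_act.2 ⟨e, (Cr_singleton _ _ _).2 ⟨hne, Or.inl rfl⟩, he⟩,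
    mem_act.2 ⟨e, (Cr_singleton _ _ _).2 ⟨hne, Or.inr rfl⟩, he⟩⟩

lemma Rank_pair {ends : E → V × V} {x : E → ℝ} {u w : V} (h : act ends x = {u, w}) :
    cv ends x {u} = cv ends x {w} := by
  have key : ∀ u w : V, act ends x = {u, w} → ∀ e, fw x e ≠ 0 → Cr ends {u} e → u ≠ w →
      Cr ends {w} e := by
    intro u w h e he hc _
    have hne := hc.ne
    obtain ⟨h1, h2⟩ := Rank_act_of_Cr hne he
    rw [h, mem_insert, mem_singleton] at h1 h2
    refine (Cr_singleton _ _ _).2 ⟨hne, ?_⟩
    rcases h1 with h1 | h1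
    · rcases h2 with h2 | h2
      · exact absurd (h1.trans h2.symm) hne
      · exact Or.inr h2
    · exact Or.inl h1
  by_cases huw : u = w
  · rw [huw]
  funext e
  unfold cv
  by_cases he : fw x e = 0
  · simp [he]
  · exact if_congr ⟨fun hc => key u w h e he hc huw,
      fun hc => key w u (h.trans (pair_comm _ _)) e he hc (Ne.symm huw)⟩ rfl rfl

lemma Rank_base {ends : E → V × V} {x : E → ℝ} (h : Feas ends x)
    (hb : ∀ S : Finset V, Odd S.card → cut ends S x = 1 → S.card = 1 ∨ Sᶜ.card = 1) :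
    2 * Module.finrank ℝ (tsp ends x) ≤ 3 * (act ends x).card - 4 := by
  classical
  have hle : tsp ends x ≤
      Submodule.span ℝ (((act ends x).image fun v => cv ends x {v} : Finset (E → ℝ)) : Set _) := by
    refine Submodule.span_le.2 ?_
    rintro g ⟨S, hS, tS, rfl⟩
    obtain ⟨v, hv⟩ : ∃ v, cv ends x S = cv ends x {v} := by
      rcases hb S hS tS with h1 | h1
      · obtain ⟨v, rfl⟩ := card_eq_one.1 h1
        exact ⟨v, rfl⟩
      · obtain ⟨v, hv⟩ := card_eq_one.1 h1
        exact ⟨v, by rw [← hv, cv_compl]⟩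
    rw [hv]
    by_cases h0 : cv ends x {v} = 0
    · rw [h0]
      exact Submodule.zero_mem _
    · exact Submodule.subset_span (mem_coe.2 (mem_image_of_mem _ (Rank_mem_act.2 h0)))
  have h1 : Module.finrank ℝ (tsp ends x) ≤ ((act ends x).image fun v => cv ends x {v}).card :=
    (Submodule.finrank_mono hle).trans (finrank_span_finset_le_card _)
  have h2 := h1.trans card_image_le
  obtain ⟨k, hk⟩ := even_card_act h
  by_cases h3 : (act ends x).card = 2
  · obtain ⟨u, w, -, huw⟩ := card_eq_two.1 h3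
    rw [huw, image_insert, image_singleton, Rank_pair huw, insert_eq_of_mem (mem_singleton_self _),
      card_singleton] at h1
    omega
  · omega

end

lemma Rank_aux {E : Type} [Fintype E] [DecidableEq E] (x : E → ℝ) (n : ℕ) :
    ∀ (V : Type) [Fintype V] [DecidableEq V] (ends : E → V × V), Fintype.card V = n →
      Feas ends x → 2 * Module.finrank ℝ (tsp ends x) ≤ 3 * (act ends x).card - 4 := by
  induction n using Nat.strong_induction_on with
  | _ n ih =>
  intro V _ _ ends hn h
  by_cases hb : ∀ S : Finset V, Odd S.card → cut ends S x = 1 → S.card = 1 ∨ Sᶜ.card = 1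
  · exact Rank_base h hb
  push Not at hb
  obtain ⟨S, hS, tS, h1, h2⟩ := hb
  have hS' := h.odd_compl hS
  have tS' : cut ends Sᶜ x = 1 := by rwa [cut_compl]
  have f1 := h.contract hS tS
  have f2 := h.contract hS' tS'
  have c1 := card_ctr S
  have c2 := card_ctr Sᶜ
  have p1 := hS.pos
  have p2 := hS'.pos
  have r1 := ih _ (by omega) _ (cends ends S) rfl f1
  have r2 := ih _ (by omega) _ (cends ends Sᶜ) rfl f2
  have e1 := Rank_card_act ends x S
  have e2 := Rank_card_act ends x Sᶜ
  rw [cv_compl, sdiff_compl] at e2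
  have e3 := card_sdiff_add_card_inter (act ends x) S
  have r3 := Submodule.finrank_mono (tsp_le_sup h hS tS)
  have r4 := Submodule.finrank_sup_add_finrank_inf_eq (tsp (cends ends S) x) (tsp (cends ends Sᶜ) x)
  rw [inf_eq_inter] at e2
  by_cases h0 : cv ends x S = 0
  · rw [if_pos h0] at e1 e2
    omega
  · rw [if_neg h0] at e1 e2
    have r5 : 0 < Module.finrank ℝ ↥(tsp (cends ends S) x ⊓ tsp (cends ends Sᶜ) x) := by
      rw [Module.finrank_pos_iff_exists_ne_zero]
      refine ⟨⟨cv ends x S, Rank_cv_mem tS, ?_⟩, fun h' => h0 (congrArg Subtype.val h')⟩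
      rw [← cv_compl]
      exact Rank_cv_mem tS'
    obtain ⟨k1, hk1⟩ := even_card_act f1
    obtain ⟨k2, hk2⟩ := even_card_act f2
    omega

/-- Rank of the tight odd cuts (natural-number subtraction: the right side is `0` if there are no
active vertices).

Recipe: strong induction on `Fintype.card V` (generalising `V` and `ends`; state an auxiliary
`∀ n, ∀ (V : Type) [Fintype V] [DecidableEq V] (ends : E → V × V), card V = n → …`).
* Suppose some odd tight `S` has `2 ≤ S.card` and `2 ≤ Sᶜ.card`.  `G₁ = cends ends S`,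
  `G₂ = cends ends Sᶜ` are feasible (`Feas.contract`, `Feas.odd_compl`, `cut_compl`) with fewer
  vertices (`card_ctr`).  With `T₁, T₂` their `tsp`, `r ≤ finrank (T₁ ⊔ T₂)` (`tsp_le_sup`) and
  `finrank (T₁ ⊔ T₂) + finrank (T₁ ⊓ T₂) = r₁ + r₂` (`Submodule.finrank_sup_add_finrank_inf_eq`).
  Active vertices: `some w ∈ act G₁ ↔ w.1 ∈ act G`, `none ∈ act G₁ ↔ cv ends x S ≠ 0`
  (`cv_cends`, `pre_some`, `pre_none`), so `a₁ = |act \ S| + δ`, `a₂ = |act ∩ S| + δ` with
  `δ = 1` if `cv S ≠ 0`, else `0`.  If `δ = 0`: `a₁ + a₂ = a` and `omega` finishes.  If `δ = 1`: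
  `cv S` is a nonzero element of `T₁ ⊓ T₂` (generator `{none}`), so that finrank is `≥ 1`;
  `a₁, a₂ ≥ 1` and even (`even_card_act`), `a₁ + a₂ = a + 2`; `omega`.
* Otherwise every odd tight `T` has `T.card = 1` or `Tᶜ.card = 1`, so `tsp ≤ span (cv {v} : v ∈ act)`
  (inactive `v` give the zero vector; `cv_compl`) and `r ≤ a` (`finrank_span_finset_le_card`).
  `a` is even; `a = 0` and `a ≥ 4` are fine.  If `act = {u, w}` then `cv {u} = cv {w}` (an edge
  with `fw ≠ 0` crossing `{u}` has both ends active, `mem_act`), so `r ≤ 1`. -/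
theorem rank_le {V E : Type} [Fintype V] [DecidableEq V] [Fintype E] [DecidableEq E]
    {ends : E → V × V} {x : E → ℝ} (h : Feas ends x) :
    2 * Module.finrank ℝ (tsp ends x) ≤ 3 * (act ends x).card - 4 := by
  exact Rank_aux x _ V ends rfl h

end Crest.Agent.R304B
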