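import Mathlib
import Crest.Agent.R304B.Edmonds

set_option autoImplicit false
set_option linter.unusedSectionVars false
open Finset

namespace Crest.Agent.R304B
open Crest.Matchings

variable {v k : ℕ} {ends : Fin k → Fin v × Fin v}

/-- Points of the polytope are exactly the marginal vectors of laws.

Recipe: (→) `convexHull_min`: the set of marginal vectors is convex (`law_mix`, `marginal_mix`) and
contains `pmIndicator M` (point mass at `M`).  (←) `marginal p = ∑ M, p M • pmIndicator M`
(`marginal_eq`); restrict the sum to `p M ≠ 0` and use `Convex.sum_mem` for `convex_convexHull`. -/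
theorem mem_pmPolytope_iff_law (x : Fin k → ℝ) :
    x ∈ pmPolytope ends ↔ ∃ p, IsMatchingLaw ends p ∧ marginal p = x := by
  constructor
  · intro hx
    refine convexHull_min (t := {x | ∃ p, IsMatchingLaw ends p ∧ marginal p = x}) ?_ ?_ hx
    · rintro _ ⟨M, hM, rfl⟩
      refine ⟨fun N => if N = M then 1 else 0, ⟨fun N => by positivity, by simp, fun N hN => ?_⟩, ?_⟩
      · have : N = M := by
          by_contra h
          exact hN (by simp [h])
        exact this ▸ hM
      · funext e
        rw [marginal_eq]
        simp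
    · rintro _ ⟨p, hp, rfl⟩ _ ⟨q, hq, rfl⟩ a b ha hb hab
      refine ⟨fun M => a * p M + b * q M, law_mix hp hq ha hb hab, ?_⟩
      funext e
      rw [marginal_mix]
      simp
  · rintro ⟨p, hp, rfl⟩
    have h1 : marginal p = ∑ M ∈ univ.filter (fun M => p M ≠ 0), p M • pmIndicator M := by
      funext e
      rw [marginal_eq, Finset.sum_apply, sum_filter]
      refine sum_congr rfl fun M _ => ?_
      split_ifs with h
      · simp
      · push Not at h
        simp [h]
    rw [h1]
    refine (convex_convexHull ℝ _).sum_mem (fun M _ => hp.1 M) ?_ fun M hM => ?_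
    · rw [sum_filter_ne_zero, hp.2.1]
    · exact subset_convexHull ℝ _ ⟨M, hp.2.2 M (mem_filter.1 hM).2, rfl⟩

private lemma poly_cut_ind (S : Finset (Fin v)) (M : Finset (Fin k)) :
    cut ends S (pmIndicator M) = ((M.filter (Cr ends S)).card : ℝ) := by
  unfold cut pmIndicator
  rw [card_filter]
  push_cast
  rw [← sum_subset (subset_univ M)]
  · refine sum_congr rfl fun e he => ?_
    simp [he]
  · intro e _ he
    simp [he]

private lemma poly_odd (hends : ∀ e, (ends e).1 ≠ (ends e).2) {M : Finset (Fin k)}
    (hM : IsPerfectMatching ends M) {S : Finset (Fin v)} (hS : Odd S.card) :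
    1 ≤ (M.filter (Cr ends S)).card := by
  by_contra h
  have h0 : ∀ e ∈ M, ¬ Cr ends S e := by
    intro e he hc
    exact h (card_pos.2 ⟨e, mem_filter.2 ⟨he, hc⟩⟩)
  have h1 : S.card = ∑ e ∈ M, (S.filter fun w => (ends e).1 = w ∨ (ends e).2 = w).card := by
    calc S.card = ∑ w ∈ S, (M.filter fun e => (ends e).1 = w ∨ (ends e).2 = w).card := by
          rw [sum_congr rfl fun w _ => hM w]
          simp
      _ = _ := by
          simp only [card_filter]
          exact sum_comm
  have h2 : Even S.card := by
    rw [h1]
    refine even_sum _ fun e he => ?_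
    have h3 := h0 e he
    unfold Cr at h3
    push Not at h3
    by_cases h4 : (ends e).1 ∈ S
    · have h5 := h3.1 h4
      have : (S.filter fun w => (ends e).1 = w ∨ (ends e).2 = w) = {(ends e).1, (ends e).2} := by
        ext w
        simp only [mem_filter, mem_insert, mem_singleton]
        constructor
        · rintro ⟨-, h | h⟩
          · exact Or.inl h.symm
          · exact Or.inr h.symm
        · rintro (rfl | rfl)
          · exact ⟨h4, Or.inl rfl⟩
          · exact ⟨h5, Or.inr rfl⟩
      rw [this, card_pair (hends e)]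
      exact even_two
    · have h5 : (ends e).2 ∉ S := fun h => h4 (h3.2 h)
      have : (S.filter fun w => (ends e).1 = w ∨ (ends e).2 = w) = ∅ := by
        rw [filter_eq_empty_iff]
        rintro w hw (rfl | rfl)
        · exact h4 hw
        · exact h5 hw
      rw [this]
      simp
  exact (Nat.not_even_iff_odd.2 hS) h2

/-- Points of the polytope satisfy Edmonds' inequalities.

Recipe: `convexHull_min`; `{x | Feas ends x}` is convex (`cut_add`, `cut_smul`).  For a perfect
matching `M` of the loopless graph, `cut ends S (pmIndicator M) = (M.filter (Cr ends S)).card`;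
degree one by `Cr_singleton`; for odd `S` the filter is nonempty by parity: if no edge of `M`
crosses `S` then `|S| = ∑_{w ∈ S} #{e ∈ M at w} = ∑_{e ∈ M} #{w ∈ S | w end of e}` and every term of
the last sum is `0` or `2`. -/
theorem feas_of_mem (hends : ∀ e, (ends e).1 ≠ (ends e).2) {x : Fin k → ℝ}
    (hx : x ∈ pmPolytope ends) : Feas ends x := by
  refine convexHull_min (t := {x | Feas ends x}) ?_ ?_ hx
  · rintro _ ⟨M, hM, rfl⟩
    refine ⟨fun e => ?_, fun w => ?_, fun S hS => ?_⟩
    · unfold pmIndicator
      positivity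
    · rw [poly_cut_ind]
      have : M.filter (Cr ends {w}) = M.filter fun e => (ends e).1 = w ∨ (ends e).2 = w :=
        filter_congr fun e _ => by rw [Cr_singleton]; exact and_iff_right (hends e)
      rw [this, hM w]
      simp
    · rw [poly_cut_ind]
      exact_mod_cast poly_odd hends hM hS
  · intro x hx y hy a b ha hb hab
    refine ⟨fun e => ?_, fun w => ?_, fun S hS => ?_⟩
    · have := hx.nonneg e
      have := hy.nonneg e
      simp only [Pi.add_apply, Pi.smul_apply, smul_eq_mul]
      positivity
    · rw [cut_add, cut_smul, cut_smul, hx.deg, hy.deg]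
      linarith
    · rw [cut_add, cut_smul, cut_smul]
      have h1 := mul_le_mul_of_nonneg_left (hx.odd S hS) ha
      have h2 := mul_le_mul_of_nonneg_left (hy.odd S hS) hb
      linarith

/-- Edmonds' theorem.

Recipe: if `x ∉ pmPolytope ends` (convex; compact as the hull of a finite set:
`Set.Finite.isCompact_convexHull`), `geometric_hahn_banach_closed_point` gives a continuous linear
`f` and `u` with `f a < u` on the polytope and `u < f x`.  With `c e = f (Pi.single e 1)` we have
`f y = ∑ e, c e * y e` (`pi_eq_sum_univ`/`LinearMap.pi_apply_eq_sum_univ`), and `edmonds_w h c` gives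
a perfect matching `M` (`Cr_singleton` turns `PM` into `IsPerfectMatching`) with
`f x ≤ ∑ e ∈ M, c e = f (pmIndicator M) < u`. -/
theorem mem_of_feas (hends : ∀ e, (ends e).1 ≠ (ends e).2) {x : Fin k → ℝ}
    (hx : Feas ends x) : x ∈ pmPolytope ends := by
  by_contra hn
  have hcl : IsClosed (pmPolytope ends) :=
    ((Set.toFinite _).image _).isClosed_convexHull ℝ
  obtain ⟨f, u, hf, hu⟩ := geometric_hahn_banach_closed_point (convex_convexHull ℝ _) hcl hn
  set c : Fin k → ℝ := fun e => f (Pi.single e 1) with hc
  have hlin : ∀ y : Fin k → ℝ, f y = ∑ e, c e * y e := by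
    intro y
    conv_lhs => rw [pi_eq_sum_univ' y]
    rw [map_sum]
    refine sum_congr rfl fun e _ => ?_
    rw [map_smul, smul_eq_mul, mul_comm]
  obtain ⟨M, hM, hle⟩ := edmonds_w hx c
  have hPM : IsPerfectMatching ends M := by
    intro w
    rw [← hM.one w]
    congr 1
    exact filter_congr fun e _ => by rw [Cr_singleton]; exact (and_iff_right (hends e)).symm
  have h1 := hf (pmIndicator M) (subset_convexHull ℝ _ ⟨M, hPM, rfl⟩)
  have h2 : f (pmIndicator M) = ∑ e ∈ M, c e := by
    rw [hlin, ← sum_subset (subset_univ M)]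
    · refine sum_congr rfl fun e he => ?_
      simp [pmIndicator, he]
    · intro e _ he
      simp [pmIndicator, he]
  have h3 : f x = ∑ e, if (ends e).1 = (ends e).2 then 0 else c e * x e := by
    rw [hlin]
    refine sum_congr rfl fun e _ => ?_
    rw [if_neg (hends e)]
  linarith

theorem feas_marginal (hends : ∀ e, (ends e).1 ≠ (ends e).2) {p : Finset (Fin k) → ℝ}
    (hp : IsMatchingLaw ends p) : Feas ends (marginal p) :=
  feas_of_mem hends ((mem_pmPolytope_iff_law _).2 ⟨p, hp, rfl⟩)

theorem exists_law_of_feas (hends : ∀ e, (ends e).1 ≠ (ends e).2) {x : Fin k → ℝ}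
    (hx : Feas ends x) : ∃ p, IsMatchingLaw ends p ∧ marginal p = x :=
  (mem_pmPolytope_iff_law _).1 (mem_of_feas hends hx)

/-- Edmonds' theorem in prelude terms (interface for part C). -/
theorem edmonds_law (hends : ∀ e, (ends e).1 ≠ (ends e).2) (x : Fin k → ℝ) (h0 : ∀ e, 0 ≤ x e)
    (hdeg : ∀ w, ∑ e ∈ univ.filter (fun e => (ends e).1 = w ∨ (ends e).2 = w), x e = 1)
    (hodd : ∀ S : Finset (Fin v), Odd S.card →
      1 ≤ ∑ e ∈ univ.filter (fun e => ¬ ((ends e).1 ∈ S ↔ (ends e).2 ∈ S)), x e) :
    ∃ p, IsMatchingLaw ends p ∧ ∀ e, marginal p e = x e := by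
  obtain ⟨p, hp, hpx⟩ := exists_law_of_feas hends (x := x) ⟨h0, fun w => by
    rw [cut_eq_filter, ← hdeg w]
    refine sum_congr (filter_congr fun e _ => ?_) fun _ _ => rfl
    rw [Cr_singleton]
    exact and_iff_right (hends e), fun S hS => by
    rw [cut_eq_filter]
    convert hodd S hS using 2
    exact filter_congr fun e _ => Iff.rfl⟩
  exact ⟨p, hp, fun e => by rw [hpx]⟩

end Crest.Agent.R304B
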