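import Mathlib
import Crest.Agent.R304B.Poly
import Crest.Agent.R304B.Face
import Crest.Agent.R304B.Ent

set_option autoImplicit false
set_option linter.unusedSectionVars false
open Finset

namespace Crest.Agent.R304B
open Crest.Matchings

variable {v k : ℕ} {ends : Fin k → Fin v × Fin v}

/-- Recipe: the laws with marginal `marginal p` form a nonempty compact set (`isCompact_laws`,
`continuous_marginal`, `IsCompact.inter_right`); maximise `lawEntropy` (`continuous_lawEntropy`,
`IsCompact.exists_isMaxOn`). -/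
theorem exists_maxEnt {p : Finset (Fin k) → ℝ} (hp : IsMatchingLaw ends p) :
    ∃ q, MaxEnt ends q ∧ marginal q = marginal p := by
  have hc : IsCompact ({q : Finset (Fin k) → ℝ | IsMatchingLaw ends q} ∩
      {q | marginal q = marginal p}) :=
    (isCompact_laws ends).inter_right (isClosed_eq continuous_marginal continuous_const)
  obtain ⟨q, hq, hmax⟩ := hc.exists_isMaxOn ⟨p, hp, rfl⟩ continuous_lawEntropy.continuousOn
  exact ⟨q, ⟨hq.1, fun q' h1 h2 => hmax ⟨h1, h2.trans hq.2⟩⟩, hq.2⟩

/-- `ent_opt` for a max-entropy law (mixtures `law_mix`, `marginal_mix` keep the marginal). -/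
theorem MaxEnt.opt {q₀ q : Finset (Fin k) → ℝ} (h : MaxEnt ends q₀) (hq : IsMatchingLaw ends q)
    (hm : marginal q = marginal q₀) :
    (∀ M, q M ≠ 0 → q₀ M ≠ 0) ∧ -∑ M, q M * Real.log (q₀ M) ≤ lawEntropy q₀ := by
  refine ent_opt q₀ q h.1.1 h.1.2.1 hq.1 hq.2.1 fun s hs0 hs1 => ?_
  refine h.2 _ (law_mix h.1 hq (by linarith) hs0.le (by ring)) ?_
  funext e
  rw [marginal_mix, hm]
  ring

/-- Recipe: let `q` be in the closure (`isClosed_of_closure_subset`; `q` is a law since the set of
laws is closed), `x = marginal q` (feasible: `feas_marginal`), and `q'` a law with marginal `x`.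
Fix `0 < s < 1`.  For `r` near `q` with `MaxEnt ends r`, `y = marginal r` is near `x`
(`continuous_marginal`) and feasible, so `z = x + s⁻¹ • (y - x)` is feasible (`feas_cone`) and is the
marginal of a law `ρ` (`exists_law_of_feas`).  The law `(1 - s) q' + s ρ` has marginal `y`, so
`lawEntropy r ≥ lawEntropy ((1 - s) q' + s ρ) ≥ (1 - s) lawEntropy q' + s lawEntropy ρ
≥ (1 - s) lawEntropy q'` (`Real.concaveOn_negMulLog`, `lawEntropy_nonneg`).  This holds frequently
near `q` (`mem_closure_iff_frequently`, `Frequently.and_eventually`), so by continuity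
(`IsClosed.mem_of_frequently_of_tendsto` or `ge_of_tendsto`-type lemma)
`lawEntropy q ≥ (1 - s) lawEntropy q'`; let `s → 0`. -/
theorem isClosed_maxEnt (hends : ∀ e, (ends e).1 ≠ (ends e).2) :
    IsClosed {q : Finset (Fin k) → ℝ | MaxEnt ends q} := by
  refine isClosed_of_closure_subset fun q hq => ?_
  have hlaw : IsMatchingLaw ends q :=
    (isCompact_laws ends).isClosed.closure_subset_iff.2 (fun r hr => hr.1) hq
  refine ⟨hlaw, fun q' hq' hm => ?_⟩
  have key : ∀ s : ℝ, 0 < s → s < 1 → (1 - s) * lawEntropy q' ≤ lawEntropy q := by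
    intro s hs0 hs1
    have h1 := (continuous_marginal.tendsto q).eventually (feas_cone (feas_marginal hends hlaw) hs0)
    have h2 : ∃ᶠ r in nhds q, lawEntropy r ∈ Set.Ici ((1 - s) * lawEntropy q') := by
      refine ((mem_closure_iff_frequently.1 hq).and_eventually h1).mono ?_
      rintro r ⟨hr, hz⟩
      obtain ⟨ρ, hρ, hρm⟩ := exists_law_of_feas hends (hz (feas_marginal hends hr.1))
      have h3 := hr.2 _ (law_mix hq' hρ (a := 1 - s) (by linarith) hs0.le (by ring)) (by
        funext e
        rw [marginal_mix, hm, hρm]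
        simp only [Pi.add_apply, Pi.smul_apply, Pi.sub_apply, smul_eq_mul]
        field_simp
        ring)
      have h4 : (1 - s) * lawEntropy q' + s * lawEntropy ρ ≤
          lawEntropy fun M => (1 - s) * q' M + s * ρ M := by
        unfold lawEntropy
        rw [mul_sum, mul_sum, ← sum_add_distrib]
        exact sum_le_sum fun M _ => Real.concaveOn_negMulLog.2 (hq'.1 M) (hρ.1 M) (by linarith)
          hs0.le (by ring)
      have h5 := mul_nonneg hs0.le (lawEntropy_nonneg hρ)
      exact Set.mem_Ici.2 (by linarith)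
    exact isClosed_Ici.mem_of_frequently_of_tendsto h2 (continuous_lawEntropy.tendsto q)
  have h6 : Filter.Tendsto (fun s : ℝ => (1 - s) * lawEntropy q') (nhdsWithin 0 (Set.Ioi 0))
      (nhds (lawEntropy q')) := by
    have hc : Continuous fun s : ℝ => (1 - s) * lawEntropy q' := by fun_prop
    simpa using (hc.tendsto 0).mono_left nhdsWithin_le_nhds
  refine le_of_tendsto h6 ?_
  filter_upwards [Ioo_mem_nhdsGT (zero_lt_one' ℝ)] with s hs using key s hs.1 hs.2

/-- Recipe: `{q | MaxEnt ends q}` is a closed subset of a compact set, nonempty by `exists_maxEnt`;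
minimise the continuous function (`continuous_Phi`). -/
theorem exists_min (hends : ∀ e, (ends e).1 ≠ (ends e).2) (κ : ℝ) {p : Finset (Fin k) → ℝ}
    (hp : IsMatchingLaw ends p) :
    ∃ q₀, MaxEnt ends q₀ ∧ ∀ q, MaxEnt ends q →
      lawEntropy q₀ - Phi κ (marginal q₀) ≤ lawEntropy q - Phi κ (marginal q) := by
  have hc : IsCompact {q : Finset (Fin k) → ℝ | MaxEnt ends q} :=
    (isCompact_laws ends).of_isClosed_subset (isClosed_maxEnt hends) fun q hq => hq.1
  obtain ⟨q, hq, -⟩ := exists_maxEnt hp
  obtain ⟨q₀, h0, hmin⟩ := hc.exists_isMinOn ⟨q, hq⟩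
    (continuous_lawEntropy.sub ((continuous_Phi κ).comp continuous_marginal)).continuousOn
  exact ⟨q₀, h0, fun q hq => hmin hq⟩

end Crest.Agent.R304B
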