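import Mathlib
import Crest.Agent.R304B.Min

set_option autoImplicit false
set_option linter.unusedSectionVars false
open Finset

namespace Crest.Agent.R304B
open Crest.Matchings

variable {v k : ℕ} {ends : Fin k → Fin v × Fin v}

/-- Centred edge indicator. -/
noncomputable def xi (q₀ : Finset (Fin k) → ℝ) (e : Fin k) (M : Finset (Fin k)) : ℝ :=
  pmIndicator M e - marginal q₀ e

/-- Minus the second derivative of the `e`-th term of `Phi κ` (zero at the integral coordinates). -/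
noncomputable def Dw (κ : ℝ) (x : Fin k → ℝ) (e : Fin k) : ℝ :=
  if 0 < x e ∧ x e < 1 then 1 / x e - κ / (1 - x e) else 0

theorem second_xi (q₀ : Finset (Fin k) → ℝ) {q : Finset (Fin k) → ℝ} (hq : ∑ M, q M = 1)
    (e : Fin k) : ∑ M, q M * xi q₀ e M = marginal q e - marginal q₀ e := by
  simp only [xi, mul_sub, sum_sub_distrib, ← sum_mul, hq, one_mul, marginal_eq q]

theorem second_small (a : ℝ) {c : ℝ} (hc : 0 < c) :
    ∀ᶠ ε in nhdsWithin (0 : ℝ) (Set.Ioi 0), |ε * a| ≤ c := by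
  have h : Filter.Tendsto (fun ε : ℝ => |ε * a|) (nhds 0) (nhds 0) :=
    Continuous.tendsto' (by fun_prop) _ _ (by simp)
  exact (h.eventually_le_const hc).filter_mono nhdsWithin_le_nhds

theorem second_coord (κ : ℝ) {x w : ℝ} (h0 : 0 < x) (h1 : x < 1) (hw : |w| ≤ x / 2)
    (hw' : |w| ≤ (1 - x) / 2) :
    2 * (Real.negMulLog x - κ * Real.negMulLog (1 - x)) -
      (Real.negMulLog (x + w) - κ * Real.negMulLog (1 - (x + w))) -
      (Real.negMulLog (x - w) - κ * Real.negMulLog (1 - (x - w))) ≤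
      (1 / x - κ / (1 - x)) * w ^ 2 + (4 / x ^ 2 + |κ| * (4 / (1 - x) ^ 2)) * |w| ^ 3 := by
  have hA := (abs_le.1 (negMulLog_second_diff h0 hw)).1
  have hB := (le_abs_self _).trans ((abs_mul κ _).trans_le
    (mul_le_mul_of_nonneg_left (negMulLog_second_diff (sub_pos.2 h1) hw') (abs_nonneg κ)))
  rw [show 1 - (x + w) = 1 - x - w by ring, show 1 - (x - w) = 1 - x + w by ring]
  simp only [div_eq_mul_inv] at *
  linarith

/-- Second-order condition at a minimiser of `lawEntropy - Phi κ ∘ marginal`.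

Recipe.  `x = marginal q₀`, `φ M = ∑ e, θ e * xi q₀ e M`, `u e = ∑ M, q₀ M * xi q₀ e M * φ M`,
`σ = ∑ M, q₀ M * φ M ^ 2 = ∑ e, θ e * u e`.  Note `∑ M, q₀ M * xi q₀ e M = 0` (`marginal_eq`), so
`∑ q₀ φ = 0`; and if `x e = 0` or `x e = 1` then `q₀ M * xi q₀ e M = 0` for all `M` (a sum of
nonnegative terms vanishes), so `u e = 0`.  For small `ε > 0` (`ε |φ M| ≤ 1` for all `M`,
`ε |u e| ≤ x e / 2, (1 - x e) / 2` when `0 < x e < 1`), `q₀ M * (1 ± ε φ M)` are laws with marginals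
`x ± ε u`.  Let `p, n` be max-entropy laws with these marginals (`exists_maxEnt`).  The law
`1/2 p + 1/2 n` has marginal `x`, so `MaxEnt.opt` gives the hypotheses of `two_point` with
`f = ε φ`; here `∑ p φ = ∑ e, θ e * (marginal p e - x e) = ε σ` and `∑ n φ = -ε σ`, so
`ent p + ent n ≤ 2 ent q₀ - ε² σ + ε⁴ ∑ q₀ φ⁴`.  Adding `hmin p` and `hmin n`:
`ε² σ - ε⁴ C₁ ≤ 2 Phi x - Phi (x + ε u) - Phi (x - ε u) ≤ ε² ∑ e, Dw κ x e * u e ^ 2 + ε³ C₂`
by `negMulLog_second_diff` at `x e` and at `1 - x e` (coordinates with `u e = 0` contribute `0`).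
Divide by `ε²` and let `ε → 0⁺` (`ge_of_tendsto` on `𝓝[>] 0`). -/
theorem second_order {q₀ : Finset (Fin k) → ℝ} (h₀ : MaxEnt ends q₀) (κ : ℝ)
    (hmin : ∀ q, MaxEnt ends q →
      lawEntropy q₀ - Phi κ (marginal q₀) ≤ lawEntropy q - Phi κ (marginal q))
    (θ : Fin k → ℝ) :
    ∑ M, q₀ M * (∑ e, θ e * xi q₀ e M) ^ 2 ≤
      ∑ e, Dw κ (marginal q₀) e * (∑ M, q₀ M * xi q₀ e M * ∑ e', θ e' * xi q₀ e' M) ^ 2 := by
  set x := marginal q₀ with hx
  set φ : Finset (Fin k) → ℝ := fun M => ∑ e, θ e * xi q₀ e M with hφ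
  set u : Fin k → ℝ := fun e => ∑ M, q₀ M * xi q₀ e M * φ M with hu
  change ∑ M, q₀ M * φ M ^ 2 ≤ ∑ e, Dw κ x e * u e ^ 2
  have hσ : ∑ e, θ e * u e = ∑ M, q₀ M * φ M ^ 2 := by
    simp only [hu, mul_sum]
    rw [sum_comm]
    refine sum_congr rfl fun M _ => ?_
    rw [sq, ← mul_assoc, mul_comm (q₀ M * φ M), hφ, sum_mul]
    exact sum_congr rfl fun e _ => by ring
  have hφq : ∀ q : Finset (Fin k) → ℝ, ∑ M, q M = 1 →
      ∑ M, q M * φ M = ∑ e, θ e * (marginal q e - x e) := fun q hq => by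
    simp only [hφ, mul_sum, hx, ← second_xi q₀ hq]
    rw [sum_comm]
    exact sum_congr rfl fun e _ => sum_congr rfl fun M _ => by ring
  have tilt : ∀ ε : ℝ, (∀ M, |ε * φ M| ≤ 1) → ∃ p, MaxEnt ends p ∧
      (∀ e, marginal p e = x e + ε * u e) ∧ ∑ M, p M * (ε * φ M) = ε ^ 2 * ∑ M, q₀ M * φ M ^ 2 := by
    intro ε hε
    have h1 : ∑ M, q₀ M * (1 + ε * φ M) = 1 := by
      have h2 := hφq q₀ h₀.1.2.1
      simp only [← hx, sub_self, mul_zero, sum_const_zero] at h2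
      simp only [mul_add, mul_one, sum_add_distrib, mul_left_comm _ ε, ← mul_sum, h2, h₀.1.2.1,
        mul_zero, add_zero]
    obtain ⟨p, hp, hm⟩ := exists_maxEnt (ends := ends) (p := fun M => q₀ M * (1 + ε * φ M))
      ⟨fun M => mul_nonneg (h₀.1.1 M) (by linarith [(abs_le.1 (hε M)).1]), h1,
        fun M hM => h₀.1.2.2 M (left_ne_zero_of_mul hM)⟩
    have h3 : ∀ e, marginal p e = x e + ε * u e := fun e => by
      have h4 := second_xi q₀ h1 e
      have h5 := second_xi q₀ h₀.1.2.1 e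
      have h6 : ∑ M, q₀ M * (1 + ε * φ M) * xi q₀ e M = ∑ M, q₀ M * xi q₀ e M + ε * u e := by
        rw [hu, mul_sum, ← sum_add_distrib]
        exact sum_congr rfl fun M _ => by ring
      rw [hm]
      linarith
    refine ⟨p, hp, h3, ?_⟩
    simp only [mul_left_comm _ ε, ← mul_sum, hφq p hp.1.2.1, h3, add_sub_cancel_left, hσ]
    ring
  have key : ∀ᶠ ε in nhdsWithin (0 : ℝ) (Set.Ioi 0), ∑ M, q₀ M * φ M ^ 2 ≤
      ∑ e, Dw κ x e * u e ^ 2 + ε * ∑ e, (4 / x e ^ 2 + |κ| * (4 / (1 - x e) ^ 2)) * |u e| ^ 3 +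
        ε ^ 2 * ∑ M, q₀ M * φ M ^ 4 := by
    have e1 : ∀ᶠ ε in nhdsWithin (0 : ℝ) (Set.Ioi 0), ∀ M, |ε * φ M| ≤ 1 :=
      Filter.eventually_all.2 fun M => second_small _ one_pos
    have e2 : ∀ᶠ ε in nhdsWithin (0 : ℝ) (Set.Ioi 0), ∀ e, 0 < x e ∧ x e < 1 →
        |ε * u e| ≤ x e / 2 ∧ |ε * u e| ≤ (1 - x e) / 2 :=
      Filter.eventually_all.2 fun e => Filter.eventually_imp_distrib_left.2 fun h =>
        (second_small _ (half_pos h.1)).and (second_small _ (half_pos (sub_pos.2 h.2)))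
    filter_upwards [e1, e2, self_mem_nhdsWithin] with ε h1 h2 hε
    replace hε : 0 < ε := hε
    obtain ⟨p, hp, mp, sp⟩ := tilt ε h1
    obtain ⟨n, hn, mn, sn⟩ := tilt (-ε) fun M => by rw [neg_mul, abs_neg]; exact h1 M
    have hmix := h₀.opt (law_mix hp.1 hn.1 (a := 1 / 2) (b := 1 / 2) (by norm_num) (by norm_num)
      (by norm_num)) (funext fun e => by rw [marginal_mix, mp, mn]; ring)
    have h3 := two_point q₀ p n (fun M => ε * φ M) h₀.1.1 h₀.1.2.1 hp.1.1 hp.1.2.1 hn.1.1 hn.1.2.1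
      (fun M hM => hmix.1 M (by
        have := lt_of_le_of_ne (hp.1.1 M) (Ne.symm hM)
        have := hn.1.1 M
        positivity))
      (fun M hM => hmix.1 M (by
        have := lt_of_le_of_ne (hn.1.1 M) (Ne.symm hM)
        have := hp.1.1 M
        positivity)) hmix.2 h1
    have h4 : ∑ M, q₀ M * ((ε * φ M) ^ 2 + (ε * φ M) ^ 4) =
        ε ^ 2 * ∑ M, q₀ M * φ M ^ 2 + ε ^ 4 * ∑ M, q₀ M * φ M ^ 4 := by
      rw [mul_sum, mul_sum, ← sum_add_distrib]
      exact sum_congr rfl fun M _ => by ring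
    simp only [neg_mul, mul_neg, sum_neg_distrib, neg_sq] at sn
    have h5 := hmin p hp
    have h6 := hmin n hn
    have h7 : 2 * Phi κ x - Phi κ (marginal p) - Phi κ (marginal n) ≤
        ε ^ 2 * ∑ e, Dw κ x e * u e ^ 2 +
          ε ^ 3 * ∑ e, (4 / x e ^ 2 + |κ| * (4 / (1 - x e) ^ 2)) * |u e| ^ 3 := by
      simp only [Phi, mul_sum, ← sum_sub_distrib, ← sum_add_distrib]
      refine sum_le_sum fun e _ => ?_
      rw [mp, mn, neg_mul, ← sub_eq_add_neg, Dw]
      split_ifs with h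
      · have h8 := second_coord κ h.1 h.2 (h2 e h).1 (h2 e h).2
        rw [abs_mul, abs_of_pos hε] at h8
        linarith
      · have h8 : ε * u e = 0 := by
          have a1 := marginal_nonneg hp.1 e
          have a2 := marginal_nonneg hn.1 e
          have a3 := marginal_le_one hp.1 e
          have a4 := marginal_le_one hn.1 e
          rw [mp] at a1 a3
          rw [mn] at a2 a4
          rcases not_and_or.1 h with h | h <;> linarith
        have h9 : u e = 0 := (mul_eq_zero.1 h8).resolve_left hε.ne'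
        simp only [h9, mul_zero, add_zero, sub_zero, abs_zero, zero_pow three_ne_zero,
          zero_pow two_ne_zero]
        linarith
    unfold lawEntropy at h5 h6
    refine le_of_mul_le_mul_left ?_ (pow_pos hε 2)
    linarith
  have lim : Filter.Tendsto (fun ε : ℝ => ∑ e, Dw κ x e * u e ^ 2 +
      ε * ∑ e, (4 / x e ^ 2 + |κ| * (4 / (1 - x e) ^ 2)) * |u e| ^ 3 + ε ^ 2 * ∑ M, q₀ M * φ M ^ 4)
      (nhds 0) (nhds (∑ e, Dw κ x e * u e ^ 2)) :=
    Continuous.tendsto' (by fun_prop) _ _ (by simp)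
  exact ge_of_tendsto (lim.mono_left nhdsWithin_le_nhds) key

end Crest.Agent.R304B
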