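import Mathlib


set_option autoImplicit false
set_option linter.unusedSectionVars false
open Finset

namespace Crest.Agent.R304B

open scoped RealInnerProductSpace in
theorem Trace_abs {Vs E : Type} [NormedAddCommGroup Vs] [InnerProductSpace ℝ Vs]
    [FiniteDimensional ℝ Vs] [Fintype E] (η : E → Vs) (D : E → ℝ)
    (h : ∀ θ : E → ℝ, ⟪∑ e, θ e • η e, ∑ e, θ e • η e⟫ ≤ ∑ e, D e * ⟪η e, ∑ e', θ e' • η e'⟫ ^ 2)
    (L : Submodule ℝ (E → ℝ)) (hL : ∀ g ∈ L, ∃ φ : Vs, ∀ e, g e = ⟪η e, φ⟫) :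
    (Module.finrank ℝ L : ℝ) ≤ ∑ e, D e * ⟪η e, η e⟫ := by
  obtain ⟨U, hU⟩ : ∃ U : Submodule ℝ Vs, U = Submodule.span ℝ (Set.range η) := ⟨_, rfl⟩
  have hη : ∀ e, η e ∈ U := fun e => hU ▸ Submodule.subset_span ⟨e, rfl⟩
  have h1 : ∀ u : U, ⟪(u : Vs), (u : Vs)⟫ ≤ ∑ e, D e * ⟪η e, (u : Vs)⟫ ^ 2 := by
    rintro ⟨u, hu⟩
    rw [hU, Submodule.mem_span_range_iff_exists_fun] at hu
    obtain ⟨θ, rfl⟩ := hu
    exact h θ
  let b := stdOrthonormalBasis ℝ U
  have h2 : (Module.finrank ℝ U : ℝ) ≤ ∑ e, D e * ⟪η e, η e⟫ := by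
    have h3 : ∀ i, (1 : ℝ) ≤ ∑ e, D e * ⟪η e, (b i : Vs)⟫ ^ 2 := by
      intro i
      have h4 := h1 (b i)
      rw [← Submodule.coe_inner, real_inner_self_eq_norm_sq, b.orthonormal.1 i, one_pow] at h4
      exact h4
    have h5 := sum_le_sum fun i (_ : i ∈ (univ : Finset (Fin (Module.finrank ℝ U)))) => h3 i
    rw [sum_const, card_univ, Fintype.card_fin, nsmul_eq_mul, mul_one, sum_comm] at h5
    refine h5.trans (le_of_eq (sum_congr rfl fun e _ => ?_))
    rw [← mul_sum]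
    congr 1
    have h6 := b.sum_inner_mul_inner (⟨η e, hη e⟩ : U) (⟨η e, hη e⟩ : U)
    simp only [Submodule.coe_inner] at h6
    rw [← h6]
    refine sum_congr rfl fun i _ => ?_
    rw [sq, real_inner_comm (η e) (b i : Vs)]
  let Λ : U →ₗ[ℝ] (E → ℝ) :=
    { toFun := fun u e => ⟪η e, (u : Vs)⟫
      map_add' := fun u v => by
        funext e
        simp [inner_add_right]
      map_smul' := fun c u => by
        funext e
        simp [inner_smul_right] }
  have h7 : L ≤ LinearMap.range Λ := by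
    intro g hg
    obtain ⟨φ, hφ⟩ := hL g hg
    obtain ⟨y, hy, z, hz, rfl⟩ := U.exists_add_mem_mem_orthogonal φ
    refine ⟨⟨y, hy⟩, funext fun e => ?_⟩
    rw [hφ e, inner_add_right, Submodule.inner_right_of_mem_orthogonal (hη e) hz, add_zero]
    rfl
  have h8 : Module.finrank ℝ L ≤ Module.finrank ℝ U :=
    (Submodule.finrank_mono h7).trans (LinearMap.finrank_range_le Λ)
  exact le_trans (by exact_mod_cast h8) h2

/-- Trace bound for the rank of a covariance matrix.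

Recipe: `η e : EuclideanSpace ℝ ι := WithLp.toLp 2 fun i => √(q i) * ξ e i`,
`U = Submodule.span ℝ (Set.range η)`.  For `u ∈ U`, `u = ∑ e, θ e • η e`
(`Submodule.mem_span_range_iff_exists_fun`) and `h θ` reads `‖u‖ ^ 2 ≤ ∑ e, D e * ⟪η e, u⟫ ^ 2`.
Sum this over the orthonormal basis `b = stdOrthonormalBasis ℝ U` and use Parseval in `U`
(`OrthonormalBasis.sum_sq_inner_right`/`sum_inner_mul_inner`) for `η e ∈ U`:
`finrank U ≤ ∑ e, D e * ‖η e‖ ^ 2`.  Finally `L ≤ range Λ` for the linear map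
`Λ : U →ₗ (E → ℝ)`, `Λ u e = ⟪η e, u⟫`: `g e = ⟪η e, φ⟫` with `φ i = √(q i) * f i`, and `φ` may be
replaced by its orthogonal projection on `U` (`Submodule.exists_add_mem_mem_orthogonal`), so
`finrank L ≤ finrank U` (`Submodule.finrank_mono`, `LinearMap.finrank_range_le`). -/
theorem finrank_le_trace {ι E : Type} [Fintype ι] [Fintype E] (q : ι → ℝ) (hq : ∀ i, 0 ≤ q i)
    (ξ : E → ι → ℝ) (D : E → ℝ)
    (h : ∀ θ : E → ℝ, ∑ i, q i * (∑ e, θ e * ξ e i) ^ 2 ≤
      ∑ e, D e * (∑ i, q i * ξ e i * ∑ e', θ e' * ξ e' i) ^ 2)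
    (L : Submodule ℝ (E → ℝ)) (hL : ∀ g ∈ L, ∃ f : ι → ℝ, ∀ e, g e = ∑ i, q i * ξ e i * f i) :
    (Module.finrank ℝ L : ℝ) ≤ ∑ e, D e * ∑ i, q i * ξ e i ^ 2 := by
  let T : (ι → ℝ) → EuclideanSpace ℝ ι := fun f => WithLp.toLp 2 fun i => √(q i) * f i
  have hT : ∀ f g : ι → ℝ, inner ℝ (T f) (T g) = ∑ i, q i * f i * g i := by
    intro f g
    rw [PiLp.inner_apply]
    refine sum_congr rfl fun i _ => ?_
    simp only [T, RCLike.inner_apply, conj_trivial]
    have := Real.mul_self_sqrt (hq i)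
    linear_combination (f i * g i) * this
  have hS : ∀ θ : E → ℝ, ∑ e, θ e • T (ξ e) = T fun i => ∑ e, θ e * ξ e i := by
    intro θ
    ext i
    simp only [T, WithLp.ofLp_sum, WithLp.ofLp_smul, Finset.sum_apply, Pi.smul_apply, smul_eq_mul,
      mul_sum]
    exact sum_congr rfl fun e _ => by ring
  have h1 := Trace_abs (fun e => T (ξ e)) D (fun θ => by
      rw [hS, hT]
      simp only [hT]
      refine le_trans (le_of_eq (sum_congr rfl fun i _ => by ring)) (h θ)) L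
    (fun g hg => by
      obtain ⟨f, hf⟩ := hL g hg
      exact ⟨T f, fun e => by rw [hT, hf e]⟩)
  simp only [hT] at h1
  refine h1.trans (le_of_eq (sum_congr rfl fun e _ => ?_))
  congr 1
  exact sum_congr rfl fun i _ => by ring

end Crest.Agent.R304B
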