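import Mathlib
import Crest.Agent.R304B.Rank
import Crest.Agent.R304B.Second
import Crest.Agent.R304B.Trace

set_option autoImplicit false
set_option linter.unusedSectionVars false
open Finset

namespace Crest.Agent.R304B
open Crest.Matchings

variable {v k : ℕ} {ends : Fin k → Fin v × Fin v}

/-- A two-sided feasible direction at the marginal of a max-entropy law is a covariance vector. -/
lemma dir_rep (hends : ∀ e, (ends e).1 ≠ (ends e).2) {q₀ : Finset (Fin k) → ℝ}
    (h₀ : MaxEnt ends q₀) {g : Fin k → ℝ} {ε : ℝ} (hε : 0 < ε)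
    (hg : ∀ t : ℝ, |t| < ε → Feas ends (marginal q₀ + t • g)) :
    ∃ f : Finset (Fin k) → ℝ, ∀ e, g e = ∑ M, q₀ M * xi q₀ e M * f M := by
  have ht : |ε / 2| < ε := by rw [abs_of_pos (by linarith)]; linarith
  have ht' : |-(ε / 2)| < ε := by rwa [abs_neg]
  obtain ⟨p, hp, hpm⟩ := exists_law_of_feas hends (hg _ ht)
  obtain ⟨n, hn, hnm⟩ := exists_law_of_feas hends (hg _ ht')
  have hmix := law_mix hp hn (a := 1 / 2) (b := 1 / 2) (by norm_num) (by norm_num) (by norm_num)
  have hm : marginal (fun M => 1 / 2 * p M + 1 / 2 * n M) = marginal q₀ := by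
    ext e
    rw [marginal_mix, hpm, hnm]
    simp only [Pi.add_apply, Pi.smul_apply, smul_eq_mul]
    ring
  have hs := (h₀.opt hmix hm).1
  have hs' : ∀ M, q₀ M = 0 → p M = 0 := by
    intro M hM
    by_contra h
    refine hs M ?_ hM
    have h1 : 0 < p M := lt_of_le_of_ne (hp.1 M) (Ne.symm h)
    have h2 := hn.1 M
    positivity
  refine ⟨fun M => p M / q₀ M / (ε / 2), fun e => ?_⟩
  have h1 : ∀ M, q₀ M * xi q₀ e M * (p M / q₀ M / (ε / 2)) =
      (p M * pmIndicator M e - p M * marginal q₀ e) / (ε / 2) := by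
    intro M
    unfold xi
    by_cases hM : q₀ M = 0
    · simp [hM, hs' M hM]
    · field_simp
  simp only [h1]
  rw [← sum_div, sum_sub_distrib, ← sum_mul, hp.2.1, ← marginal_eq, hpm]
  simp only [Pi.add_apply, Pi.smul_apply, smul_eq_mul]
  field_simp
  ring

lemma var_xi {q₀ : Finset (Fin k) → ℝ} (h₀ : IsMatchingLaw ends q₀) (e : Fin k) :
    ∑ M, q₀ M * xi q₀ e M ^ 2 = marginal q₀ e * (1 - marginal q₀ e) := by
  have h1 : ∀ M, q₀ M * xi q₀ e M ^ 2 = q₀ M * pmIndicator M e * (1 - 2 * marginal q₀ e) +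
      q₀ M * marginal q₀ e ^ 2 := by
    intro M
    unfold xi pmIndicator
    split_ifs <;> ring
  simp only [h1]
  rw [sum_add_distrib, ← sum_mul, ← sum_mul, ← marginal_eq, h₀.2.1]
  ring

/-- At a minimiser with `κ > 2 - 2 / m` all marginals are integral. -/
lemma min_integral {m : ℕ} (hm : 1 ≤ m) {ends : Fin k → Fin (2 * m) × Fin (2 * m)}
    (hends : ∀ e, (ends e).1 ≠ (ends e).2) {q₀ : Finset (Fin k) → ℝ} (h₀ : MaxEnt ends q₀)
    {κ : ℝ} (hκ : 2 - 2 / (m : ℝ) < κ)
    (hmin : ∀ q, MaxEnt ends q →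
      lawEntropy q₀ - Phi κ (marginal q₀) ≤ lawEntropy q - Phi κ (marginal q)) (e₀ : Fin k) :
    fw (marginal q₀) e₀ = 0 := by
  by_contra hne
  set x := marginal q₀ with hx
  have hF : Feas ends x := feas_marginal hends h₀.1
  obtain ⟨L, hL, hdim⟩ := exists_face hF
  have htr := finrank_le_trace q₀ h₀.1.1 (xi q₀) (Dw κ x) (second_order h₀ κ hmin) L
    (fun g hg => by
      obtain ⟨ε, hε, hg'⟩ := hL g hg
      exact dir_rep hends h₀ hε hg')
  have hsum : ∑ e, Dw κ x e * ∑ M, q₀ M * xi q₀ e M ^ 2 =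
      ((univ.filter fun e => 0 < x e ∧ x e < 1).card : ℝ) - (1 + κ) * ∑ e, fw x e := by
    rw [card_filter, Nat.cast_sum, mul_sum, ← sum_sub_distrib]
    refine sum_congr rfl fun e _ => ?_
    rw [var_xi h₀.1, ← hx]
    unfold Dw
    by_cases he : 0 < x e ∧ x e < 1
    · have h1 : fw x e = x e := by simp [fw, he.2]
      have h2 : x e ≠ 0 := he.1.ne'
      have h3 : 1 - x e ≠ 0 := by linarith [he.2]
      rw [if_pos he, if_pos he, h1]
      field_simp
      push_cast
      ring
    · have h1 : fw x e = 0 := by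
        by_contra h
        exact he ((fw_ne_zero hF.nonneg e).1 h)
      rw [if_neg he, if_neg he, h1]
      simp
  rw [hsum] at htr
  have hrank := rank_le hF
  have hact := card_act hF hends
  have hev := even_card_act hF
  have hpos : 0 < (act ends x).card :=
    card_pos.2 ⟨(ends e₀).1, mem_act.2 ⟨e₀, (Cr_singleton _ _ _).2 ⟨hends e₀, Or.inl rfl⟩, hne⟩⟩
  have hle : (act ends x).card ≤ 2 * m := by simpa using card_le_univ (act ends x)
  obtain ⟨j, hj⟩ := hev
  have hr : Module.finrank ℝ (tsp ends x) + 2 ≤ 3 * j := by omega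
  have hr' : (Module.finrank ℝ (tsp ends x) : ℝ) + 2 ≤ 3 * j := by exact_mod_cast hr
  have hdim' : (((univ.filter fun e => 0 < x e ∧ x e < 1).card : ℕ) : ℝ) ≤
      Module.finrank ℝ L + Module.finrank ℝ (tsp ends x) := by exact_mod_cast hdim
  have hjs : ∑ e, fw x e = j := by
    rw [hj] at hact
    push_cast at hact
    linarith
  rw [hjs] at htr
  have hj0 : (0 : ℝ) < j := by exact_mod_cast (by omega : 0 < j)
  have hjm : (j : ℝ) ≤ m := by exact_mod_cast (by omega : j ≤ m)
  have hm0 : (0 : ℝ) < m := by exact_mod_cast hm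
  have h1 : (2 - 2 / (m : ℝ)) * j < κ * j := mul_lt_mul_of_pos_right hκ hj0
  have h2 : 2 / (m : ℝ) * j ≤ 2 := by
    rw [div_mul_eq_mul_div, div_le_iff₀ hm0]
    linarith
  nlinarith

lemma Phi_eq_zero {x : Fin k → ℝ} (h0 : ∀ e, 0 ≤ x e) (h1 : ∀ e, x e ≤ 1) (h : ∀ e, fw x e = 0)
    (κ : ℝ) : Phi κ x = 0 := by
  have h2 : ∀ e, x e = 0 ∨ x e = 1 := by
    intro e
    by_contra hc
    push Not at hc
    exact (fw_ne_zero h0 e).2 ⟨lt_of_le_of_ne (h0 e) hc.1.symm, lt_of_le_of_ne (h1 e) hc.2⟩ (h e)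
  unfold Phi
  rw [sum_eq_zero, sum_eq_zero]
  · simp
  · intro e _
    rcases h2 e with h | h <;> simp [h]
  · intro e _
    rcases h2 e with h | h <;> simp [h]

theorem entropy_bound {m : ℕ} (hm : 1 ≤ m) {ends : Fin k → Fin (2 * m) × Fin (2 * m)}
    (hends : ∀ e, (ends e).1 ≠ (ends e).2) {p : Finset (Fin k) → ℝ} (hp : IsMatchingLaw ends p) :
    ∃ q, IsMatchingLaw ends q ∧ marginal q = marginal p ∧
      Phi (2 - 2 / (m : ℝ)) (marginal p) ≤ lawEntropy q := by
  obtain ⟨q, hq, hqm⟩ := exists_maxEnt hp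
  refine ⟨q, hq.1, hqm, ?_⟩
  have key : ∀ κ : ℝ, 2 - 2 / (m : ℝ) < κ → Phi κ (marginal p) ≤ lawEntropy q := by
    intro κ hκ
    obtain ⟨q₀, h₀, hmin⟩ := exists_min hends κ hp
    have h1 := Phi_eq_zero (marginal_nonneg h₀.1) (marginal_le_one h₀.1)
      (min_integral hm hends h₀ hκ hmin) κ
    have h2 := hmin q hq
    have h3 := lawEntropy_nonneg h₀.1
    rw [hqm, h1] at h2
    linarith
  have hc : Continuous fun κ : ℝ => Phi κ (marginal p) := by
    unfold Phi
    fun_prop
  have ht := (hc.tendsto (2 - 2 / (m : ℝ))).mono_left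
    (nhdsWithin_le_nhds (s := Set.Ioi (2 - 2 / (m : ℝ))))
  exact le_of_tendsto ht (eventually_nhdsWithin_of_forall key)

theorem face_bound {m : ℕ} (hm : 1 ≤ m) {ends : Fin k → Fin (2 * m) × Fin (2 * m)}
    (hends : ∀ e, (ends e).1 ≠ (ends e).2) {x : Fin k → ℝ} (hx : x ∈ pmPolytope ends) :
    ((univ.filter fun e => 0 < x e).card : ℤ) - (pmFaceDim ends x : ℤ) ≤ 3 * (m : ℤ) - 2 := by
  have hF := feas_of_mem hends hx
  obtain ⟨L, hL, hdim⟩ := exists_face hF
  have hLle : Module.finrank ℝ L ≤ pmFaceDim ends x := by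
    unfold pmFaceDim
    refine Submodule.finrank_mono fun g hg => Submodule.subset_span ?_
    obtain ⟨ε, hε, hg'⟩ := hL g hg
    exact ⟨ε, hε, fun t ht => mem_of_feas hends (hg' t ht)⟩
  have hrank := rank_le hF
  have hact := card_act hF hends
  have hV := card_eq_two_sum hF hends
  set j := (univ.filter fun e => x e = 1).card with hj
  have hsum : ∑ e, x e = ∑ e, fw x e + j := by
    rw [hj, card_filter, Nat.cast_sum, ← sum_add_distrib]
    refine sum_congr rfl fun e _ => ?_
    unfold fw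
    rcases (hF.le_one (hends e)).lt_or_eq with h | h
    · simp [h, h.ne]
    · simp [h]
  have hcard : (univ.filter fun e => 0 < x e).card =
      (univ.filter fun e => 0 < x e ∧ x e < 1).card + j := by
    rw [hj, ← card_union_of_disjoint]
    · congr 1
      ext e
      simp only [mem_filter, mem_univ, true_and, mem_union]
      constructor
      · intro h
        rcases (hF.le_one (hends e)).lt_or_eq with h' | h'
        · exact Or.inl ⟨h, h'⟩
        · exact Or.inr h'
      · rintro (h | h)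
        · exact h.1
        · rw [h]; exact one_pos
    · rw [disjoint_left]
      intro e h1 h2
      simp only [mem_filter, mem_univ, true_and] at h1 h2
      exact h1.2.ne h2
  have hcount : (act ends x).card + 2 * j = 2 * m := by
    have : ((act ends x).card : ℝ) + 2 * j = 2 * m := by
      rw [hact]
      simp only [Fintype.card_fin] at hV
      push_cast at hV
      linarith
    exact_mod_cast this
  omega

end Crest.Agent.R304B
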